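
import Mathlib

/-!
# P089 AM/Core: operators on `ℓ²(J)`, matrix entries, permutation and diagonal operators
-/

namespace P089.AMC

open scoped Classical

noncomputable section

/-- the Hilbert space `ℓ²(J)` -/
abbrev L2 (J : Type) : Type := lp (fun _ : J => ℂ) 2

/-- bounded operators -/
abbrev Op (J : Type) : Type := L2 J →L[ℂ] L2 J

variable {J : Type}

/-- the basis vector -/
def dl (j : J) : L2 J := lp.single 2 j (1 : ℂ)

/-- matrix entry -/
def ent (T : Op J) (i j : J) : ℂ := (T (dl j)) i

theorem dl_apply (i j : J) : (dl j : L2 J) i = if i = j then 1 else 0 := by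
  unfold dl
  rw [lp.single_apply, Pi.single_apply]

theorem norm_dl (j : J) : ‖(dl j : L2 J)‖ = 1 := by
  unfold dl
  rw [lp.norm_single (by norm_num)]
  simp

theorem ent_add (S T : Op J) (i j : J) : ent (S + T) i j = ent S i j + ent T i j := rfl

theorem ent_sub (S T : Op J) (i j : J) : ent (S - T) i j = ent S i j - ent T i j := rfl

theorem ent_smul (c : ℂ) (T : Op J) (i j : J) : ent (c • T) i j = c * ent T i j := rfl

theorem ent_one (i j : J) : ent (1 : Op J) i j = if i = j then 1 else 0 := by
  exact dl_apply i j

theorem ent_sum {ι : Type} (s : Finset ι) (T : ι → Op J) (i j : J) :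
    ent (∑ k ∈ s, T k) i j = ∑ k ∈ s, ent (T k) i j := by
  induction s using Finset.induction_on with
  | empty => rfl
  | insert a s ha ih => rw [Finset.sum_insert ha, Finset.sum_insert ha, ent_add, ih]

theorem L2_inner (i : J) (ξ : L2 J) : inner ℂ (dl i) ξ = ξ i := by
  unfold dl
  rw [lp.inner_single_left]
  simp

theorem hasSum_apply (T : Op J) (ξ : L2 J) (i : J) :
    HasSum (fun j => ent T i j * ξ j) (T ξ i) := by
  have h1 : HasSum (fun j => lp.single 2 j (ξ j)) ξ := lp.hasSum_single (by norm_num) ξ
  have h2 := (innerSL ℂ (dl i)).hasSum (T.hasSum h1)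
  simp only [innerSL_apply_apply, L2_inner] at h2
  refine h2.congr_fun fun j => ?_
  have h3 : (lp.single 2 j (ξ j) : L2 J) = ξ j • dl j := by
    unfold dl
    rw [← lp.single_smul, smul_eq_mul, mul_one]
  rw [h3, map_smul]
  unfold ent
  exact mul_comm _ _

theorem op_ext {S T : Op J} (h : ∀ i j, ent S i j = ent T i j) : S = T := by
  refine ContinuousLinearMap.ext fun ξ => ?_
  ext i
  have h1 := hasSum_apply S ξ i
  simp only [h] at h1
  exact h1.unique (hasSum_apply T ξ i)

theorem ent_star (T : Op J) (i j : J) : ent (star T) i j = star (ent T j i) := by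
  unfold ent
  rw [← L2_inner, ← L2_inner, ContinuousLinearMap.star_eq_adjoint,
    ContinuousLinearMap.adjoint_inner_right, ← inner_conj_symm]
  rfl

/-- columns are square summable -/
theorem summable_col (T : Op J) (j : J) : Summable fun i => ‖ent T i j‖ ^ 2 := by
  have h := (lp.memℓp (T (dl j))).summable (by norm_num)
  refine h.congr fun i => ?_
  unfold ent
  norm_num

/-- rows are square summable -/
theorem summable_row (T : Op J) (i : J) : Summable fun j => ‖ent T i j‖ ^ 2 := by
  refine (summable_col (star T) i).congr fun j => ?_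
  rw [ent_star, norm_star]

theorem summable_mul (S T : Op J) (i j : J) : Summable fun k => ent S i k * ent T k j :=
  (hasSum_apply S (T (dl j)) i).summable

theorem ent_mul (S T : Op J) (i j : J) : ent (S * T) i j = ∑' k, ent S i k * ent T k j :=
  (hasSum_apply S (T (dl j)) i).tsum_eq.symm

end

end P089.AMC
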