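
import Mathlib
import Vale.Agent.Lib.P089.AM.Core.L2

/-!
# P089 AM/Core: permutation and diagonal operators
-/

namespace P089.AMC

open scoped Classical

noncomputable section

variable {J : Type}

theorem memlp_comp (e : J ≃ J) (ξ : L2 J) : Memℓp (fun h => ξ (e h)) 2 := by
  have hp : 0 < (2 : ENNReal).toReal := by norm_num
  have h1 : Summable fun i => ‖ξ i‖ ^ (2 : ENNReal).toReal := (lp.memℓp ξ).summable hp
  exact memℓp_gen (h1.comp_injective e.injective)

theorem norm_comp (e : J ≃ J) (ξ : L2 J) :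
    ‖(⟨fun h => ξ (e h), memlp_comp e ξ⟩ : L2 J)‖ = ‖ξ‖ := by
  have hp : 0 < (2 : ENNReal).toReal := by norm_num
  rw [lp.norm_eq_tsum_rpow hp, lp.norm_eq_tsum_rpow hp]
  congr 1
  exact Equiv.tsum_eq e fun i => ‖ξ i‖ ^ (2 : ENNReal).toReal

/-- permutation operator: `perm e δ_j = δ_(e j)` -/
def perm (e : Equiv.Perm J) : Op J :=
  LinearMap.mkContinuous
    { toFun := fun ξ => ⟨fun h => ξ (e.symm h), memlp_comp e.symm ξ⟩
      map_add' := fun _ _ => rfl
      map_smul' := fun _ _ => rfl } 1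
    (fun ξ => by rw [one_mul]; exact (norm_comp e.symm ξ).le)

theorem perm_apply (e : Equiv.Perm J) (ξ : L2 J) (i : J) : perm e ξ i = ξ (e.symm i) := rfl

theorem norm_perm_le (e : Equiv.Perm J) : ‖perm e‖ ≤ 1 :=
  LinearMap.mkContinuous_norm_le _ zero_le_one _

theorem perm_dl (e : Equiv.Perm J) (j : J) : perm e (dl j) = dl (e j) := by
  refine lp.ext (funext fun i => ?_)
  change (perm e (dl j)) i = (dl (e j) : L2 J) i
  rw [perm_apply, dl_apply, dl_apply, Equiv.symm_apply_eq]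

theorem ent_perm (e : Equiv.Perm J) (i j : J) : ent (perm e) i j = if i = e j then 1 else 0 := by
  unfold ent
  rw [perm_dl, dl_apply]

theorem perm_mul (e f : Equiv.Perm J) : perm (e * f) = perm e * perm f := by
  ext ξ i
  rfl

theorem perm_one : perm (1 : Equiv.Perm J) = 1 := by
  ext ξ i
  rfl

theorem star_perm (e : Equiv.Perm J) : star (perm e) = perm e⁻¹ := by
  refine op_ext fun i j => ?_
  rw [ent_star, ent_perm, ent_perm]
  by_cases h : j = e i
  · have h1 : i = e⁻¹ j := by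
      rw [h]
      exact (e.symm_apply_apply i).symm
    rw [if_pos h, if_pos h1, star_one]
  · have h1 : i ≠ e⁻¹ j := fun h2 => h (by
      rw [h2]
      exact (e.apply_symm_apply j).symm)
    rw [if_neg h, if_neg h1, star_zero]

theorem ent_perm_mul (e : Equiv.Perm J) (T : Op J) (i j : J) :
    ent (perm e * T) i j = ent T (e.symm i) j := rfl

theorem ent_mul_perm (e : Equiv.Perm J) (T : Op J) (i j : J) :
    ent (T * perm e) i j = ent T i (e j) := by
  unfold ent
  rw [← perm_dl]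
  rfl

theorem memlp_dg {f : J → ℂ} {C : ℝ} (h : ∀ j, ‖f j‖ ≤ C) (ξ : L2 J) :
    Memℓp (fun j => f j * ξ j) 2 := by
  have hp : 0 < (2 : ENNReal).toReal := by norm_num
  have h1 : Summable fun i => ‖ξ i‖ ^ (2 : ENNReal).toReal := (lp.memℓp ξ).summable hp
  refine memℓp_gen (Summable.of_nonneg_of_le (fun j => by positivity) (fun j => ?_)
    (h1.mul_left (|C| ^ (2 : ENNReal).toReal)))
  rw [← Real.mul_rpow (abs_nonneg C) (norm_nonneg _), norm_mul]
  exact Real.rpow_le_rpow (by positivity)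
    (mul_le_mul_of_nonneg_right ((h j).trans (le_abs_self C)) (norm_nonneg _)) hp.le

theorem norm_dg_aux {f : J → ℂ} {C : ℝ} (h : ∀ j, ‖f j‖ ≤ C) (ξ : L2 J) :
    ‖(⟨fun j => f j * ξ j, memlp_dg h ξ⟩ : L2 J)‖ ≤ C * ‖ξ‖ := by
  have hp : 0 < (2 : ENNReal).toReal := by norm_num
  rcases isEmpty_or_nonempty J with hJ | ⟨⟨j₀⟩⟩
  · have h1 : ‖(⟨fun j => f j * ξ j, memlp_dg h ξ⟩ : L2 J)‖ = 0 := by
      rw [norm_eq_zero]
      exact lp.ext (funext fun j => isEmptyElim j)
    have h2 : ‖ξ‖ = 0 := by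
      rw [norm_eq_zero]
      exact lp.ext (funext fun j => isEmptyElim j)
    rw [h1, h2, mul_zero]
  · have hC : 0 ≤ C := (norm_nonneg _).trans (h j₀)
    refine lp.norm_le_of_forall_sum_le hp (by positivity) fun s => ?_
    have h1 := lp.sum_rpow_le_norm_rpow hp ξ s
    calc ∑ i ∈ s, ‖f i * ξ i‖ ^ (2 : ENNReal).toReal
        ≤ ∑ i ∈ s, C ^ (2 : ENNReal).toReal * ‖ξ i‖ ^ (2 : ENNReal).toReal := by
          refine Finset.sum_le_sum fun i _ => ?_
          rw [← Real.mul_rpow hC (norm_nonneg _), norm_mul]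
          exact Real.rpow_le_rpow (by positivity)
            (mul_le_mul_of_nonneg_right (h i) (norm_nonneg _)) hp.le
      _ = C ^ (2 : ENNReal).toReal * ∑ i ∈ s, ‖ξ i‖ ^ (2 : ENNReal).toReal := by
          rw [Finset.mul_sum]
      _ ≤ C ^ (2 : ENNReal).toReal * ‖ξ‖ ^ (2 : ENNReal).toReal :=
          mul_le_mul_of_nonneg_left h1 (by positivity)
      _ = (C * ‖ξ‖) ^ (2 : ENNReal).toReal := (Real.mul_rpow hC (norm_nonneg _)).symm

/-- diagonal operator of a bounded function (`0` if the function is not bounded) -/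
def dg (f : J → ℂ) : Op J :=
  if h : ∃ C : ℝ, ∀ j, ‖f j‖ ≤ C then
    LinearMap.mkContinuous
      { toFun := fun ξ => ⟨fun j => f j * ξ j, memlp_dg h.choose_spec ξ⟩
        map_add' := fun ξ η => by
          ext j
          exact mul_add _ _ _
        map_smul' := fun c ξ => by
          ext j
          exact mul_left_comm _ _ _ } h.choose
      (fun ξ => norm_dg_aux h.choose_spec ξ)
  else 0

theorem dg_apply {f : J → ℂ} {C : ℝ} (h : ∀ j, ‖f j‖ ≤ C) (ξ : L2 J) (j : J) :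
    dg f ξ j = f j * ξ j := by
  unfold dg
  rw [dif_pos ⟨C, h⟩]
  rfl

theorem norm_dg_le {f : J → ℂ} {C : ℝ} (h0 : 0 ≤ C) (h : ∀ j, ‖f j‖ ≤ C) : ‖dg f‖ ≤ C := by
  refine ContinuousLinearMap.opNorm_le_bound _ h0 fun ξ => ?_
  have h1 : dg f ξ = ⟨fun j => f j * ξ j, memlp_dg h ξ⟩ :=
    lp.ext (funext fun j => dg_apply h ξ j)
  rw [h1]
  exact norm_dg_aux h ξ

theorem ent_dg {f : J → ℂ} {C : ℝ} (h : ∀ j, ‖f j‖ ≤ C) (i j : J) :
    ent (dg f) i j = if i = j then f i else 0 := by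
  unfold ent
  rw [dg_apply h, dl_apply]
  split_ifs
  · rw [mul_one]
  · rw [mul_zero]

theorem ent_dg_mul {f : J → ℂ} {C : ℝ} (h : ∀ j, ‖f j‖ ≤ C) (T : Op J) (i j : J) :
    ent (dg f * T) i j = f i * ent T i j := dg_apply h (T (dl j)) i

theorem ent_mul_dg {f : J → ℂ} {C : ℝ} (h : ∀ j, ‖f j‖ ≤ C) (T : Op J) (i j : J) :
    ent (T * dg f) i j = ent T i j * f j := by
  have h1 : dg f (dl j) = f j • (dl j : L2 J) := by
    refine lp.ext (funext fun i => ?_)
    change (dg f (dl j)) i = f j * (dl j : L2 J) i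
    rw [dg_apply h, dl_apply]
    by_cases hij : i = j
    · rw [hij]
    · rw [if_neg hij, mul_zero, mul_zero]
  change (T (dg f (dl j))) i = (T (dl j)) i * f j
  rw [h1, map_smul]
  change f j * (T (dl j)) i = (T (dl j)) i * f j
  rw [mul_comm]

end

end P089.AMC
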