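
import Mathlib
import Vale.Agent.Lib.P089.AM.Core.L2P

/-!
# P089 AM/Core: amplification `1 ⊗ T` on `ℓ²(K × I)`
-/

namespace P089.AMC

open scoped Classical

noncomputable section

variable {K I : Type}

theorem Amp_hasSum {J : Type} (ξ : L2 J) : HasSum (fun i => ‖ξ i‖ ^ 2) (‖ξ‖ ^ 2) := by
  have hp : 0 < (2 : ENNReal).toReal := by norm_num
  have h := lp.hasSum_norm hp ξ
  simpa using h

theorem Amp_memlp {J : Type} {f : J → ℂ} (h : Summable fun i => ‖f i‖ ^ 2) : Memℓp f 2 := by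
  refine memℓp_gen ?_
  simpa using h

/-- section of a vector at `e` -/
theorem memlp_sec (ξ : L2 (K × I)) (e : K) : Memℓp (fun i => ξ (e, i)) 2 := by
  refine Amp_memlp ?_
  exact (Amp_hasSum ξ).summable.comp_injective (Prod.mk_right_injective e)

/-- section of a vector at `e` -/
def sec (e : K) (ξ : L2 (K × I)) : L2 I := ⟨fun i => ξ (e, i), memlp_sec ξ e⟩

theorem sec_apply (e : K) (ξ : L2 (K × I)) (i : I) : sec e ξ i = ξ (e, i) := rfl

theorem Amp_norm_sec (ξ : L2 (K × I)) (e : K) : ‖sec e ξ‖ ^ 2 = ∑' i, ‖ξ (e, i)‖ ^ 2 :=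
  (Amp_hasSum (sec e ξ)).tsum_eq.symm

theorem summable_sec (ξ : L2 (K × I)) : Summable fun e => ‖sec e ξ‖ ^ 2 := by
  simp only [Amp_norm_sec]
  exact (Amp_hasSum ξ).summable.prod

theorem tsum_sec (ξ : L2 (K × I)) : ∑' e, ‖sec e ξ‖ ^ 2 = ‖ξ‖ ^ 2 := by
  simp only [Amp_norm_sec]
  rw [← (Amp_hasSum ξ).tsum_eq]
  exact ((Amp_hasSum ξ).summable.tsum_prod).symm

theorem Amp_le (T : Op I) (ξ : L2 (K × I)) (e : K) :
    ‖T (sec e ξ)‖ ^ 2 ≤ ‖T‖ ^ 2 * ‖sec e ξ‖ ^ 2 := by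
  rw [← mul_pow]
  exact pow_le_pow_left₀ (norm_nonneg _) (T.le_opNorm _) 2

theorem Amp_summable (T : Op I) (ξ : L2 (K × I)) : Summable fun e => ‖T (sec e ξ)‖ ^ 2 :=
  Summable.of_nonneg_of_le (fun _ => by positivity) (Amp_le T ξ) ((summable_sec ξ).mul_left _)

theorem Amp_summable_prod (T : Op I) (ξ : L2 (K × I)) :
    Summable fun p : K × I => ‖T (sec p.1 ξ) p.2‖ ^ 2 := by
  rw [summable_prod_of_nonneg (fun _ => by positivity)]
  refine ⟨fun e => (Amp_hasSum (T (sec e ξ))).summable, ?_⟩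
  have : (fun e => ∑' i, ‖T (sec e ξ) i‖ ^ 2) = fun e => ‖T (sec e ξ)‖ ^ 2 :=
    funext fun e => (Amp_hasSum (T (sec e ξ))).tsum_eq
  rw [this]
  exact Amp_summable T ξ

theorem memlp_amp (T : Op I) (ξ : L2 (K × I)) :
    Memℓp (fun p : K × I => T (sec p.1 ξ) p.2) 2 :=
  Amp_memlp (Amp_summable_prod T ξ)

theorem norm_amp_aux (T : Op I) (ξ : L2 (K × I)) :
    ‖(⟨fun p : K × I => T (sec p.1 ξ) p.2, memlp_amp T ξ⟩ : L2 (K × I))‖ ≤ ‖T‖ * ‖ξ‖ := by
  set η : L2 (K × I) := ⟨fun p : K × I => T (sec p.1 ξ) p.2, memlp_amp T ξ⟩ with hη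
  have h1 : ‖η‖ ^ 2 = ∑' e, ‖T (sec e ξ)‖ ^ 2 := by
    rw [← (Amp_hasSum η).tsum_eq]
    have h2 : ∑' p : K × I, ‖η p‖ ^ 2 = ∑' p : K × I, ‖T (sec p.1 ξ) p.2‖ ^ 2 := rfl
    rw [h2, (Amp_summable_prod T ξ).tsum_prod]
    exact tsum_congr fun e => (Amp_hasSum (T (sec e ξ))).tsum_eq
  have h3 : ‖η‖ ^ 2 ≤ (‖T‖ * ‖ξ‖) ^ 2 := by
    rw [h1, mul_pow, ← tsum_sec ξ, ← tsum_mul_left]
    exact (Amp_summable T ξ).tsum_le_tsum (Amp_le T ξ) ((summable_sec ξ).mul_left _)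
  exact le_of_sq_le_sq h3 (by positivity)

/-- `1 ⊗ T` -/
def amp (K : Type) (T : Op I) : Op (K × I) :=
  LinearMap.mkContinuous
    { toFun := fun ξ => ⟨fun p => T (sec p.1 ξ) p.2, memlp_amp T ξ⟩
      map_add' := fun ξ η => by
        ext p
        have : sec p.1 (ξ + η) = sec p.1 ξ + sec p.1 η := rfl
        change T (sec p.1 (ξ + η)) p.2 = T (sec p.1 ξ) p.2 + T (sec p.1 η) p.2
        rw [this, map_add]
        rfl
      map_smul' := fun c ξ => by
        ext p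
        have : sec p.1 (c • ξ) = c • sec p.1 ξ := rfl
        change T (sec p.1 (c • ξ)) p.2 = c • T (sec p.1 ξ) p.2
        rw [this, map_smul]
        rfl } ‖T‖
    (fun ξ => norm_amp_aux T ξ)

theorem Amp_apply (T : Op I) (ξ : L2 (K × I)) (p : K × I) :
    amp K T ξ p = T (sec p.1 ξ) p.2 := rfl

theorem Amp_sec (T : Op I) (ξ : L2 (K × I)) (e : K) : sec e (amp K T ξ) = T (sec e ξ) := by
  ext i
  rfl

theorem norm_amp_le (T : Op I) : ‖amp K T‖ ≤ ‖T‖ :=
  LinearMap.mkContinuous_norm_le _ (norm_nonneg _) _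

theorem ent_amp (T : Op I) (p q : K × I) :
    ent (amp K T) p q = if p.1 = q.1 then ent T p.2 q.2 else 0 := by
  unfold ent
  rw [Amp_apply]
  by_cases h : p.1 = q.1
  · rw [if_pos h]
    have h1 : sec p.1 (dl q : L2 (K × I)) = dl q.2 := by
      ext i
      rw [sec_apply, dl_apply, dl_apply, h]
      by_cases hi : i = q.2
      · rw [if_pos hi, if_pos (by rw [hi])]
      · rw [if_neg hi, if_neg]
        intro h2
        exact hi (congrArg (fun x : K × I => x.2) h2)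
    rw [h1]
  · rw [if_neg h]
    have h1 : sec p.1 (dl q : L2 (K × I)) = 0 := by
      ext i
      rw [sec_apply, dl_apply, if_neg]
      · rfl
      · intro h2
        have h3 : ((p.1, i) : K × I).1 = q.1 := by rw [h2]
        exact h h3
    rw [h1, map_zero]
    rfl

theorem amp_one : amp K (1 : Op I) = 1 := by
  ext ξ p
  rfl

theorem amp_mul (S T : Op I) : amp K (S * T) = amp K S * amp K T := by
  ext ξ p
  change S (T (sec p.1 ξ)) p.2 = S (sec p.1 (amp K T ξ)) p.2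
  rw [Amp_sec]

theorem amp_add (S T : Op I) : amp K (S + T) = amp K S + amp K T := by
  ext ξ p
  rfl

theorem amp_sub (S T : Op I) : amp K (S - T) = amp K S - amp K T := by
  ext ξ p
  rfl

theorem amp_smul (c : ℂ) (T : Op I) : amp K (c • T) = c • amp K T := by
  ext ξ p
  rfl

theorem star_amp (T : Op I) : star (amp K T) = amp K (star T) := by
  refine op_ext fun p q => ?_
  rw [ent_star, ent_amp, ent_amp, ent_star]
  by_cases h : p.1 = q.1
  · rw [if_pos h, if_pos h.symm]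
  · rw [if_neg h, if_neg (Ne.symm h), star_zero]

end

end P089.AMC
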