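
import Mathlib

/-!
# P089 AM/Core: the Clifford group of a group `G` with a central involution `z`

Generators `J` (central of order two) and `c v` (`v` in `G`), `c v ^ 2 = 1`, `c (z v) = J c v` and
`c v c w = J c w c v` for `w` not in `{v, z v}`.  `G` acts by `c v ↦ c (g v)`.
-/

namespace P089.AMC

variable {G : Type} [Group G] (z : G)

/-- the relators; `none` is `J`, `some v` is `c v` -/
inductive CRel : FreeGroup (Option G) → Prop
  | jj : CRel (FreeGroup.of none * FreeGroup.of none)
  | jc (v : G) : CRel (FreeGroup.of none * FreeGroup.of (some v) *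
      (FreeGroup.of (some v) * FreeGroup.of none)⁻¹)
  | cc (v : G) : CRel (FreeGroup.of (some v) * FreeGroup.of (some v))
  | cz (v : G) : CRel (FreeGroup.of (some (z * v)) * (FreeGroup.of none * FreeGroup.of (some v))⁻¹)
  | anti (v w : G) (h₁ : w ≠ v) (h₂ : w ≠ z * v) : CRel (FreeGroup.of (some v) *
      FreeGroup.of (some w) * (FreeGroup.of none * (FreeGroup.of (some w) *
        FreeGroup.of (some v)))⁻¹)

/-- the Clifford group -/
abbrev Cl : Type := PresentedGroup {r | CRel z r}

/-- the central element `J` -/
def cJ : Cl z := PresentedGroup.of none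

/-- the generator `c v` -/
def cc (v : G) : Cl z := PresentedGroup.of (some v)

private theorem rel_eq {x y : FreeGroup (Option G)} (h : CRel z (x * y⁻¹)) :
    PresentedGroup.mk {r | CRel z r} x = PresentedGroup.mk {r | CRel z r} y :=
  PresentedGroup.mk_eq_mk_of_mul_inv_mem h

theorem cJ_mul_self : cJ z * cJ z = 1 :=
  PresentedGroup.one_of_mem (rels := {r | CRel z r}) (CRel.jj (z := z))

theorem cc_mul_self (v : G) : cc z v * cc z v = 1 :=
  PresentedGroup.one_of_mem (rels := {r | CRel z r}) (CRel.cc (z := z) v)

theorem cJ_comm_cc (v : G) : cJ z * cc z v = cc z v * cJ z :=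
  rel_eq z (CRel.jc v)

theorem cJ_central (e : Cl z) : cJ z * e = e * cJ z := by
  have h : e ∈ Subgroup.centralizer ({cJ z} : Set (Cl z)) := by
    refine PresentedGroup.generated_by {r | CRel z r} _ ?_ e
    intro j
    rw [Subgroup.mem_centralizer_singleton_iff]
    cases j with
    | none => rfl
    | some v => exact (cJ_comm_cc z v).symm
  rw [Subgroup.mem_centralizer_singleton_iff] at h
  exact h.symm

theorem cc_z (v : G) : cc z (z * v) = cJ z * cc z v :=
  rel_eq z (CRel.cz v)

theorem cc_anti {v w : G} (h₁ : w ≠ v) (h₂ : w ≠ z * v) :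
    cc z v * cc z w = cJ z * (cc z w * cc z v) :=
  rel_eq z (CRel.anti v w h₁ h₂)

/-- the images of the generators under the action of `g` -/
private def actGen (g : G) : Option G → Cl z
  | none => cJ z
  | some v => cc z (g * v)

private theorem actGen_rel (hz : ∀ g : G, z * g = g * z) (g : G) (r : FreeGroup (Option G))
    (hr : r ∈ {r | CRel z r}) : FreeGroup.lift (actGen z g) r = 1 := by
  have hr' : CRel z r := hr
  cases hr' with
  | jj =>
    rw [map_mul, FreeGroup.lift_apply_of]
    exact cJ_mul_self z
  | jc v =>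
    rw [map_mul, map_inv, map_mul, map_mul, FreeGroup.lift_apply_of, FreeGroup.lift_apply_of,
      mul_inv_eq_one]
    exact cJ_comm_cc z (g * v)
  | cc v =>
    rw [map_mul, FreeGroup.lift_apply_of]
    exact cc_mul_self z (g * v)
  | cz v =>
    rw [map_mul, map_inv, map_mul, FreeGroup.lift_apply_of, FreeGroup.lift_apply_of,
      FreeGroup.lift_apply_of, mul_inv_eq_one]
    show cc z (g * (z * v)) = cJ z * cc z (g * v)
    rw [← mul_assoc, ← hz g, mul_assoc]
    exact cc_z z (g * v)
  | anti v w h₁ h₂ =>
    rw [map_mul, map_inv, map_mul, map_mul, map_mul, FreeGroup.lift_apply_of,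
      FreeGroup.lift_apply_of, FreeGroup.lift_apply_of, mul_inv_eq_one]
    refine cc_anti z (fun h => h₁ (mul_left_cancel h)) (fun h => h₂ ?_)
    rw [← mul_assoc, hz g, mul_assoc] at h
    exact mul_left_cancel h

private def actHom (hz : ∀ g : G, z * g = g * z) (g : G) : Cl z →* Cl z :=
  PresentedGroup.toGroup (rels := {r | CRel z r}) (f := actGen z g) (actGen_rel z hz g)

private theorem actHom_cJ (hz : ∀ g : G, z * g = g * z) (g : G) : actHom z hz g (cJ z) = cJ z :=
  PresentedGroup.toGroup.of (rels := {r | CRel z r}) (f := actGen z g) (actGen_rel z hz g)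

private theorem actHom_cc (hz : ∀ g : G, z * g = g * z) (g v : G) :
    actHom z hz g (cc z v) = cc z (g * v) :=
  PresentedGroup.toGroup.of (rels := {r | CRel z r}) (f := actGen z g) (actGen_rel z hz g)

private theorem actHom_mul (hz : ∀ g : G, z * g = g * z) (g h : G) :
    (actHom z hz g).comp (actHom z hz h) = actHom z hz (g * h) := by
  refine PresentedGroup.ext fun x => ?_
  cases x with
  | none =>
    show actHom z hz g (actHom z hz h (cJ z)) = actHom z hz (g * h) (cJ z)
    rw [actHom_cJ, actHom_cJ, actHom_cJ]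
  | some v =>
    show actHom z hz g (actHom z hz h (cc z v)) = actHom z hz (g * h) (cc z v)
    rw [actHom_cc, actHom_cc, actHom_cc, mul_assoc]

private theorem actHom_one (hz : ∀ g : G, z * g = g * z) :
    actHom z hz 1 = MonoidHom.id (Cl z) := by
  refine PresentedGroup.ext fun x => ?_
  cases x with
  | none =>
    show actHom z hz 1 (cJ z) = cJ z
    rw [actHom_cJ]
  | some v =>
    show actHom z hz 1 (cc z v) = cc z v
    rw [actHom_cc, one_mul]

/-- extend the action on generators -/
theorem exists_act (hz : ∀ g : G, z * g = g * z) :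
    ∃ f : G →* MulAut (Cl z), (∀ g, f g (cJ z) = cJ z) ∧ ∀ g v, f g (cc z v) = cc z (g * v) := by
  refine ⟨{ toFun := fun g => MonoidHom.toMulEquiv (actHom z hz g) (actHom z hz g⁻¹) ?_ ?_,
            map_one' := ?_, map_mul' := ?_ }, ?_, ?_⟩
  · rw [actHom_mul, inv_mul_cancel, actHom_one]
  · rw [actHom_mul, mul_inv_cancel, actHom_one]
  · refine MulEquiv.ext fun e => ?_
    exact DFunLike.congr_fun (actHom_one z hz) e
  · intro g h
    refine MulEquiv.ext fun e => ?_
    exact (DFunLike.congr_fun (actHom_mul z hz g h) e).symm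
  · intro g
    exact actHom_cJ z hz g
  · intro g v
    exact actHom_cc z hz g v

/-- the action of `G` on the Clifford group -/
noncomputable def cact (hz : ∀ g : G, z * g = g * z) : G →* MulAut (Cl z) := (exists_act z hz).choose

theorem cact_cJ (hz : ∀ g : G, z * g = g * z) (g : G) : cact z hz g (cJ z) = cJ z :=
  (exists_act z hz).choose_spec.1 g

theorem cact_cc (hz : ∀ g : G, z * g = g * z) (g v : G) : cact z hz g (cc z v) = cc z (g * v) :=
  (exists_act z hz).choose_spec.2 g v

end P089.AMC
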