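
import Mathlib
import Vale.Agent.Lib.P089.AM.Core.L2P

/-!
# P089 AM/Core: the trace on operators invariant under a free action, supported on finitely many orbits
-/

namespace P089.AMC

open scoped Classical

noncomputable section

variable {J : Type} (K : Type) [Group K] [MulAction K J]

/-- invariant operators -/
def Invt (T : Op J) : Prop := ∀ (g : K) (i j : J), ent T (g • i) (g • j) = ent T i j

/-- the point lies in the orbit of a point of `F` -/
def InF (F : Finset J) (i : J) : Prop := ∃ g : K, ∃ f ∈ F, i = g • f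

/-- operator supported on the orbits of `F` -/
def SuppF (F : Finset J) (T : Op J) : Prop := ∀ i j, ent T i j ≠ 0 → InF K F i ∧ InF K F j

/-- the points of `F` are in different orbits -/
def DistinctF (F : Finset J) : Prop := ∀ f ∈ F, ∀ f' ∈ F, ∀ g : K, g • f = f' → f = f'

/-- trace -/
def trF (F : Finset J) (T : Op J) : ℂ := ∑ i ∈ F, ent T i i

variable {K}

/-- the permutation of a group element -/
theorem invt_iff {T : Op J} : Invt K T ↔ ∀ g : K,
    T * perm (MulAction.toPerm g) = perm (MulAction.toPerm g) * T := by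
  constructor
  · intro h g
    apply op_ext
    intro i j
    rw [ent_mul_perm, ent_perm_mul]
    have h1 := h g ((MulAction.toPerm g).symm i) j
    have h2 : g • ((MulAction.toPerm g).symm i) = i := (MulAction.toPerm g).apply_symm_apply i
    rw [h2] at h1
    exact h1
  · intro h g i j
    have h1 := congrArg (fun A : Op J => ent A (g • i) j) (h g)
    simp only [ent_mul_perm, ent_perm_mul] at h1
    have h2 : (MulAction.toPerm g).symm (g • i) = i := (MulAction.toPerm g).symm_apply_apply i
    rw [h2] at h1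
    exact h1

theorem Invt.one : Invt K (1 : Op J) := by
  rw [invt_iff]
  intro g
  rw [one_mul, mul_one]

theorem Invt.add {S T : Op J} (hS : Invt K S) (hT : Invt K T) : Invt K (S + T) := by
  intro g i j
  rw [ent_add, ent_add, hS g i j, hT g i j]

theorem Invt.sub {S T : Op J} (hS : Invt K S) (hT : Invt K T) : Invt K (S - T) := by
  intro g i j
  rw [ent_sub, ent_sub, hS g i j, hT g i j]

theorem Invt.smul (c : ℂ) {T : Op J} (hT : Invt K T) : Invt K (c • T) := by
  intro g i j
  rw [ent_smul, ent_smul, hT g i j]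

theorem Invt.mul {S T : Op J} (hS : Invt K S) (hT : Invt K T) : Invt K (S * T) := by
  rw [invt_iff] at hS hT ⊢
  intro g
  rw [mul_assoc, hT g, ← mul_assoc, hS g, mul_assoc]

theorem Invt.inv {w w' : Op J} (h : w * w' = 1) (h' : w' * w = 1) (hw : Invt K w) :
    Invt K w' := by
  rw [invt_iff] at hw ⊢
  intro g
  calc w' * perm (MulAction.toPerm g) = w' * perm (MulAction.toPerm g) * (w * w') := by
        rw [h, mul_one]
    _ = w' * (perm (MulAction.toPerm g) * w) * w' := by simp only [mul_assoc]
    _ = w' * (w * perm (MulAction.toPerm g)) * w' := by rw [hw g]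
    _ = (w' * w) * (perm (MulAction.toPerm g) * w') := by simp only [mul_assoc]
    _ = perm (MulAction.toPerm g) * w' := by rw [h', one_mul]

theorem SuppF.mul {F : Finset J} {S T : Op J} (hS : SuppF K F S) (hT : SuppF K F T) :
    SuppF K F (S * T) := by
  intro i j hij
  rw [ent_mul] at hij
  have h1 : ∃ k, ent S i k * ent T k j ≠ 0 := by
    by_contra hcon
    push Not at hcon
    apply hij
    simp only [hcon, tsum_zero]
  obtain ⟨k, hk⟩ := h1
  exact ⟨(hS i k (left_ne_zero_of_mul hk)).1, (hT k j (right_ne_zero_of_mul hk)).2⟩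

/-- sum over the orbits of `F` -/
theorem Trace_tsum (hfree : ∀ (g : K) (i : J), g • i = i → g = 1) {F : Finset J}
    (hF : DistinctF K F) {φ : J → ℂ} (hs : Summable φ) (h0 : ∀ k, φ k ≠ 0 → InF K F k) :
    ∑' k, φ k = ∑ f ∈ F, ∑' g : K, φ (g • f) := by
  let q : F × K → J := fun p => p.2 • (p.1 : J)
  have hq : Function.Injective q := by
    rintro ⟨f, g⟩ ⟨f', g'⟩ h
    have h1 : g • (f : J) = g' • (f' : J) := h
    have h2 : (g'⁻¹ * g) • (f : J) = (f' : J) := by
      rw [mul_smul, h1, inv_smul_smul]
    have h3 : (f : J) = f' := hF f f.2 f' f'.2 _ h2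
    have h4 : g'⁻¹ * g = 1 := hfree _ _ (h2.trans h3.symm)
    have h5 : g = g' := by
      rw [inv_mul_eq_one] at h4
      exact h4.symm
    exact Prod.ext (Subtype.ext h3) h5
  have hsup : Function.support φ ⊆ Set.range q := by
    intro k hk
    obtain ⟨g, f, hf, hkf⟩ := h0 k hk
    exact ⟨(⟨f, hf⟩, g), hkf.symm⟩
  have h1 : ∑' p, φ (q p) = ∑' k, φ k := hq.tsum_eq hsup
  have h2 : Summable (fun p : F × K => φ (q p)) := hs.comp_injective hq
  rw [← h1, h2.tsum_prod, tsum_fintype]
  exact Finset.sum_coe_sort F (fun f => ∑' g : K, φ (g • f))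

/-- **trace property** -/
theorem trF_comm (hfree : ∀ (g : K) (i : J), g • i = i → g = 1) {F : Finset J}
    (hF : DistinctF K F) {S T : Op J} (hS : Invt K S) (hT : Invt K T) (hSF : SuppF K F S) :
    trF F (S * T) = trF F (T * S) := by
  unfold trF
  have h1 : ∀ f ∈ F, ent (S * T) f f
      = ∑ f' ∈ F, ∑' g : K, ent S f (g • f') * ent T (g • f') f := by
    intro f _
    rw [ent_mul]
    exact Trace_tsum hfree hF (summable_mul S T f f)
      fun k hk => (hSF f k (left_ne_zero_of_mul hk)).2
  have h2 : ∀ f ∈ F, ent (T * S) f f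
      = ∑ f' ∈ F, ∑' g : K, ent T f (g • f') * ent S (g • f') f := by
    intro f _
    rw [ent_mul]
    exact Trace_tsum hfree hF (summable_mul T S f f)
      fun k hk => (hSF k f (right_ne_zero_of_mul hk)).1
  rw [Finset.sum_congr rfl h1, Finset.sum_congr rfl h2, Finset.sum_comm]
  refine Finset.sum_congr rfl fun f _ => Finset.sum_congr rfl fun f' _ => ?_
  rw [← (Equiv.inv K).tsum_eq]
  refine tsum_congr fun g => ?_
  have e1 : ent S f' ((Equiv.inv K) g • f) = ent S (g • f') f := by
    rw [← hS g f' ((Equiv.inv K) g • f)]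
    rw [Equiv.inv_apply, smul_inv_smul]
  have e2 : ent T ((Equiv.inv K) g • f) f' = ent T f (g • f') := by
    rw [← hT g ((Equiv.inv K) g • f) f']
    rw [Equiv.inv_apply, smul_inv_smul]
  rw [e1, e2, mul_comm]

end

end P089.AMC
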