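
import Mathlib
import Vale.Agent.Lib.P089.AM.Core.CliffGroup
import Vale.Agent.Lib.P089.AM.Core.Trace
import Vale.Agent.Lib.P089.AM.Core.Amp

/-!
# P089 AM/Core: configuration data, the space `Cl × I` and its operators
-/

namespace P089.AMC

open scoped Classical

noncomputable section

/-- `ℓ¹` distance -/
def l1 {G : Type} (a b : G →₀ ℝ) : ℝ := (a - b).sum fun _ r => |r|

/-- a free `G`-set `I` with equivariant positions in a Rips complex, and a central involution `z` which is not
in the finite set `Es` -/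
structure Cfg (G : Type) [Group G] where
  z : G
  z_central : ∀ g, z * g = g * z
  z_sq : z * z = 1
  Es : Finset G
  z_notMem : z ∉ Es
  I : Type
  [act : MulAction G I]
  free : ∀ (g : G) (i : I), g • i = i → g = 1
  x : I → G →₀ ℝ
  x_nonneg : ∀ i v, 0 ≤ x i v
  x_supp : ∀ i v w, x i v ≠ 0 → x i w ≠ 0 → v⁻¹ * w ∈ Es
  x_sum : ∀ i, ((x i).sum fun _ r => r) = 1
  x_equiv : ∀ (g : G) (i : I) (v : G), x (g • i) (g * v) = x i v

attribute [instance] Cfg.act

variable {G : Type} [Group G] (C : Cfg G)

namespace Cfg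

theorem exists_v0 (i : C.I) : ∃ v, C.x i v ≠ 0 := by
  by_contra h
  push Not at h
  have h1 : C.x i = 0 := Finsupp.ext h
  have h2 := C.x_sum i
  rw [h1, Finsupp.sum_zero_index] at h2
  exact zero_ne_one h2

/-- a vertex of the support of the position -/
def v0 (i : C.I) : G := (C.exists_v0 i).choose

theorem v0_spec (i : C.I) : C.x i (C.v0 i) ≠ 0 := (C.exists_v0 i).choose_spec

theorem one_mem (i : C.I) : (1 : G) ∈ C.Es := by
  have h := C.x_supp i _ _ (C.v0_spec i) (C.v0_spec i)
  rwa [inv_mul_cancel] at h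

theorem z_ne_one (i : C.I) : C.z ≠ 1 := by
  intro h
  exact C.z_notMem (h ▸ C.one_mem i)

/-- the group acting on `Cl × I` -/
abbrev KK : Type := Cl C.z ⋊[cact C.z C.z_central] G

/-- the index set -/
def EI : Type := Cl C.z × C.I

/-- a point of the index set -/
def pt (e : Cl C.z) (i : C.I) : C.EI := (e, i)

instance : MulAction C.KK C.EI where
  smul k p := (k.left * cact C.z C.z_central k.right p.1, k.right • p.2)
  one_smul p := by
    change ((1 : C.KK).left * cact C.z C.z_central (1 : C.KK).right p.1, (1 : C.KK).right • p.2) = p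
    rw [SemidirectProduct.one_left, SemidirectProduct.one_right, map_one, one_smul, one_mul]
    rfl
  mul_smul k k' p := by
    change ((k * k').left * cact C.z C.z_central (k * k').right p.1, (k * k').right • p.2) =
      (k.left * cact C.z C.z_central k.right (k'.left * cact C.z C.z_central k'.right p.1),
        k.right • k'.right • p.2)
    rw [SemidirectProduct.mul_left, SemidirectProduct.mul_right, map_mul, map_mul, mul_smul,
      mul_assoc]
    rfl

theorem smul_def (k : C.KK) (e : Cl C.z) (i : C.I) :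
    k • C.pt e i = C.pt (k.left * cact C.z C.z_central k.right e) (k.right • i) := rfl

theorem exists_pt (p : C.EI) : ∃ e i, p = C.pt e i := ⟨p.1, p.2, rfl⟩

theorem free_EI (k : C.KK) (p : C.EI) (h : k • p = p) : k = 1 := by
  obtain ⟨e, i, rfl⟩ := C.exists_pt p
  rw [smul_def] at h
  have h1 : k.right • i = i := congrArg Prod.snd h
  have h2 : k.left * cact C.z C.z_central k.right e = e := congrArg Prod.fst h
  have h3 : k.right = 1 := C.free _ _ h1
  rw [h3, map_one, MulAut.one_apply] at h2
  have h4 : k.left = 1 := mul_eq_right.1 h2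
  exact SemidirectProduct.ext h4 h3

/-- right multiplication by `J` -/
def eJ : Equiv.Perm C.EI where
  toFun p := (p.1 * cJ C.z, p.2)
  invFun p := (p.1 * cJ C.z, p.2)
  left_inv p := by
    change ((p.1 * cJ C.z * cJ C.z, p.2) : C.EI) = p
    rw [mul_assoc, cJ_mul_self, mul_one]
    rfl
  right_inv p := by
    change ((p.1 * cJ C.z * cJ C.z, p.2) : C.EI) = p
    rw [mul_assoc, cJ_mul_self, mul_one]
    rfl

/-- right multiplication by the generator `c (v p.2)` -/
def eC (v : C.I → G) : Equiv.Perm C.EI where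
  toFun p := (p.1 * cc C.z (v p.2), p.2)
  invFun p := (p.1 * cc C.z (v p.2), p.2)
  left_inv p := by
    change ((p.1 * cc C.z (v p.2) * cc C.z (v p.2), p.2) : C.EI) = p
    rw [mul_assoc, cc_mul_self, mul_one]
    rfl
  right_inv p := by
    change ((p.1 * cc C.z (v p.2) * cc C.z (v p.2), p.2) : C.EI) = p
    rw [mul_assoc, cc_mul_self, mul_one]
    rfl

/-- translation by `z` -/
def eZ : Equiv.Perm C.EI where
  toFun p := (p.1, C.z • p.2)
  invFun p := (p.1, C.z • p.2)
  left_inv p := by
    change ((p.1, C.z • C.z • p.2) : C.EI) = p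
    rw [← mul_smul, C.z_sq, one_smul]
    rfl
  right_inv p := by
    change ((p.1, C.z • C.z • p.2) : C.EI) = p
    rw [← mul_smul, C.z_sq, one_smul]
    rfl

/-- the symmetry `J` -/
def RJ : Op C.EI := perm C.eJ

/-- the projection onto `J = -1` -/
def em : Op C.EI := (1 / 2 : ℂ) • (1 - C.RJ)

/-- translation by `z` -/
def Zp : Op C.EI := perm C.eZ

/-- amplification -/
def am (T : Op C.I) : Op C.EI := amp (Cl C.z) T

/-- Clifford multiplication by the position -/
def Ch : Op C.EI := ∑ h ∈ C.Es, perm (C.eC fun i => C.v0 i * h) *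
  dg (fun p : C.EI => ((Real.sqrt (C.x p.2 (C.v0 p.2 * h)) : ℝ) : ℂ))

/-- propagation at most `ε` -/
def PropLE (ε : ℝ) (a : Op C.I) : Prop := ∀ i j, ent a i j ≠ 0 → l1 (C.x i) (C.x j) ≤ ε

end Cfg

end

end P089.AMC
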