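
import Mathlib
import Vale.Agent.Lib.P089.AM.Core.CliffGroup

/-!
# P089 AM/Core: `J ≠ 1` in the Clifford group

Permutation representation on `ZMod 2 × Finset G`: choose a linear order on `G` and a representative
`rep v ∈ {v, z v}` with `rep (z v) = rep v`, and `b v = 0` if `rep v = v`, `b v = 1` otherwise
(so `b (z v) = b v + 1` as `z ≠ 1`).  `J` acts by `(ε, X) ↦ (ε + 1, X)`, and `c v` by
`(ε, X) ↦ (ε + b v + #{s ∈ X, s < rep v}, X Δ {rep v})`.
-/

namespace P089.AMC

variable {G : Type} [Group G] (z : G)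

private noncomputable def CliffRep_N {G : Type} [LinearOrder G] (r : G) :
    (G →₀ ZMod 2) →+ ZMod 2 :=
  Finsupp.liftAddHom fun s => if s < r then AddMonoidHom.id (ZMod 2) else 0

private theorem CliffRep_N_single {G : Type} [LinearOrder G] (r s : G) :
    CliffRep_N r (Finsupp.single s 1) = if s < r then 1 else 0 := by
  unfold CliffRep_N
  rw [Finsupp.liftAddHom_apply_single]
  split_ifs <;> rfl

private noncomputable def CliffRep_step {G : Type} [LinearOrder G] (b : ZMod 2) (r : G)
    (p : ZMod 2 × (G →₀ ZMod 2)) : ZMod 2 × (G →₀ ZMod 2) :=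
  (p.1 + b + CliffRep_N r p.2, p.2 + Finsupp.single r 1)

private def CliffRep_J {G : Type} (p : ZMod 2 × (G →₀ ZMod 2)) : ZMod 2 × (G →₀ ZMod 2) :=
  (p.1 + 1, p.2)

private theorem CliffRep_single {G : Type} (r : G) :
    (Finsupp.single r 1 : G →₀ ZMod 2) + Finsupp.single r 1 = 0 := by
  rw [← Finsupp.single_add, CharTwo.add_self_eq_zero, Finsupp.single_zero]

private theorem CliffRep_step_inv {G : Type} [LinearOrder G] (b : ZMod 2) (r : G) :
    Function.Involutive (CliffRep_step b r) := by
  intro p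
  unfold CliffRep_step
  ext1
  · change p.1 + b + CliffRep_N r p.2 + b + CliffRep_N r (p.2 + Finsupp.single r 1) = p.1
    rw [map_add, CliffRep_N_single, if_neg (lt_irrefl r)]
    have h1 : b + b = 0 := CharTwo.add_self_eq_zero b
    have h2 : CliffRep_N r p.2 + CliffRep_N r p.2 = 0 := CharTwo.add_self_eq_zero _
    linear_combination h1 + h2
  · change p.2 + Finsupp.single r 1 + Finsupp.single r 1 = p.2
    rw [add_assoc, CliffRep_single, add_zero]

private theorem CliffRep_J_inv {G : Type} :
    Function.Involutive (CliffRep_J : ZMod 2 × (G →₀ ZMod 2) → ZMod 2 × (G →₀ ZMod 2)) := by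
  intro p
  unfold CliffRep_J
  ext1
  · change p.1 + 1 + 1 = p.1
    have h1 : (1 : ZMod 2) + 1 = 0 := CharTwo.add_self_eq_zero 1
    linear_combination h1
  · rfl

theorem cJ_ne_one (h1 : z ≠ 1) (h2 : z * z = 1) : cJ z ≠ 1 := by
  obtain ⟨hlo, -⟩ := exists_wellFoundedLT G
  have hzz : ∀ v : G, z * (z * v) = v := fun v => by rw [← mul_assoc, h2, one_mul]
  have hne : ∀ v : G, z * v ≠ v := fun v h => h1 (mul_eq_right.1 h)
  let rep : G → G := fun v => min v (z * v)
  let b : G → ZMod 2 := fun v => if v ≤ z * v then 0 else 1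
  have hrep : ∀ v, rep (z * v) = rep v := by
    intro v
    change min (z * v) (z * (z * v)) = min v (z * v)
    rw [hzz, min_comm]
  have hb : ∀ v, b (z * v) = b v + 1 := by
    intro v
    change (if z * v ≤ z * (z * v) then (0 : ZMod 2) else 1) = (if v ≤ z * v then 0 else 1) + 1
    rw [hzz]
    rcases lt_or_gt_of_ne (hne v) with h | h
    · rw [if_pos h.le, if_neg (not_le.2 h)]
      exact (CharTwo.add_self_eq_zero (1 : ZMod 2)).symm
    · rw [if_neg (not_le.2 h), if_pos h.le, zero_add]
  have hrr : ∀ v w, w ≠ v → w ≠ z * v → rep v ≠ rep w := by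
    intro v w hw1 hw2 h
    change min v (z * v) = min w (z * w) at h
    rcases min_choice v (z * v) with h3 | h3 <;> rcases min_choice w (z * w) with h4 | h4 <;>
      rw [h3, h4] at h
    · exact hw1 h.symm
    · exact hw2 (by rw [h, hzz])
    · exact hw2 h.symm
    · exact hw1 (mul_left_cancel h).symm
  let Jp : Equiv.Perm (ZMod 2 × (G →₀ ZMod 2)) := CliffRep_J_inv.toPerm
  let cp : G → Equiv.Perm (ZMod 2 × (G →₀ ZMod 2)) := fun v =>
    (CliffRep_step_inv (b v) (rep v)).toPerm
  have hJp : ∀ p, Jp p = (p.1 + 1, p.2) := fun p => rfl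
  have hcp : ∀ v p, cp v p = (p.1 + b v + CliffRep_N (rep v) p.2, p.2 + Finsupp.single (rep v) 1) :=
    fun v p => rfl
  have hJJ : Jp * Jp = 1 := by
    ext1 p
    exact CliffRep_J_inv p
  have hcc : ∀ v, cp v * cp v = 1 := by
    intro v
    ext1 p
    exact CliffRep_step_inv (b v) (rep v) p
  have hJc : ∀ v, Jp * cp v = cp v * Jp := by
    intro v
    ext1 p
    rw [Equiv.Perm.mul_apply, Equiv.Perm.mul_apply, hJp, hcp, hcp, hJp]
    ext1
    · change p.1 + b v + CliffRep_N (rep v) p.2 + 1 = p.1 + 1 + b v + CliffRep_N (rep v) p.2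
      ring
    · rfl
  have hcz : ∀ v, cp (z * v) = Jp * cp v := by
    intro v
    ext1 p
    rw [Equiv.Perm.mul_apply, hJp, hcp, hcp, hrep, hb]
    ext1
    · change p.1 + (b v + 1) + CliffRep_N (rep v) p.2 = p.1 + b v + CliffRep_N (rep v) p.2 + 1
      ring
    · rfl
  have hanti : ∀ v w, w ≠ v → w ≠ z * v → cp v * cp w = Jp * (cp w * cp v) := by
    intro v w hw1 hw2
    have hr := hrr v w hw1 hw2
    ext1 p
    rw [Equiv.Perm.mul_apply, Equiv.Perm.mul_apply, Equiv.Perm.mul_apply, hJp, hcp, hcp, hcp, hcp]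
    ext1
    · change p.1 + b w + CliffRep_N (rep w) p.2 + b v +
          CliffRep_N (rep v) (p.2 + Finsupp.single (rep w) 1) =
        p.1 + b v + CliffRep_N (rep v) p.2 + b w +
          CliffRep_N (rep w) (p.2 + Finsupp.single (rep v) 1) + 1
      rw [map_add, map_add, CliffRep_N_single, CliffRep_N_single]
      rcases lt_or_gt_of_ne hr with h | h
      · rw [if_neg (not_lt.2 h.le), if_pos h]
        have h5 : (1 : ZMod 2) + 1 = 0 := CharTwo.add_self_eq_zero 1
        linear_combination - h5
      · rw [if_pos h, if_neg (not_lt.2 h.le)]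
        ring
    · change p.2 + Finsupp.single (rep w) 1 + Finsupp.single (rep v) 1 =
        p.2 + Finsupp.single (rep v) 1 + Finsupp.single (rep w) 1
      exact add_right_comm _ _ _
  let F : Option G → Equiv.Perm (ZMod 2 × (G →₀ ZMod 2)) := fun o => o.elim Jp cp
  have hF : ∀ r ∈ {r | CRel z r}, FreeGroup.lift F r = 1 := by
    intro r hr
    rw [Set.mem_ofPred_eq] at hr
    cases hr with
    | jj =>
      rw [map_mul, FreeGroup.lift_apply_of]
      exact hJJ
    | jc v =>
      rw [map_mul, map_inv, map_mul, map_mul, FreeGroup.lift_apply_of, FreeGroup.lift_apply_of,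
        mul_inv_eq_one]
      exact hJc v
    | cc v =>
      rw [map_mul, FreeGroup.lift_apply_of]
      exact hcc v
    | cz v =>
      rw [map_mul, map_inv, map_mul, FreeGroup.lift_apply_of, FreeGroup.lift_apply_of,
        FreeGroup.lift_apply_of, mul_inv_eq_one]
      exact hcz v
    | anti v w h₁ h₂ =>
      rw [map_mul, map_inv, map_mul, map_mul, map_mul, FreeGroup.lift_apply_of,
        FreeGroup.lift_apply_of, FreeGroup.lift_apply_of, mul_inv_eq_one]
      exact hanti v w h₁ h₂
  intro hJ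
  have h6 : PresentedGroup.toGroup hF (cJ z) = Jp := PresentedGroup.toGroup.of hF
  rw [hJ, map_one] at h6
  have h7 := congrArg (fun e : Equiv.Perm (ZMod 2 × (G →₀ ZMod 2)) => (e (0, 0)).1) h6
  have h8 : (0 : ZMod 2) = 0 + 1 := h7
  rw [zero_add] at h8
  exact zero_ne_one h8

end P089.AMC
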