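
import Mathlib
import Vale.Agent.Lib.P089.AM.Core.Cfg
import Vale.Agent.Lib.P089.AM.Core.CliffRep

/-!
# P089 AM/Core: algebraic identities of the operators `RJ`, `em`, `Zp`, `am`
-/

namespace P089.AMC

open scoped Classical

noncomputable section

namespace Cfg

variable {G : Type} [Group G] (C : Cfg G)

theorem RJ_apply (ξ : L2 C.EI) (e : Cl C.z) (i : C.I) :
    C.RJ ξ (C.pt e i) = ξ (C.pt (e * cJ C.z) i) := rfl

theorem Zp_apply (ξ : L2 C.EI) (e : Cl C.z) (i : C.I) :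
    C.Zp ξ (C.pt e i) = ξ (C.pt e (C.z • i)) := rfl

theorem Ops_eJ_eJ : C.eJ * C.eJ = 1 := Equiv.ext fun p => C.eJ.left_inv p

theorem Ops_eZ_eZ : C.eZ * C.eZ = 1 := Equiv.ext fun p => C.eZ.left_inv p

theorem Ops_eJ_inv : C.eJ⁻¹ = C.eJ := inv_eq_of_mul_eq_one_right C.Ops_eJ_eJ

theorem Ops_eZ_inv : C.eZ⁻¹ = C.eZ := inv_eq_of_mul_eq_one_right C.Ops_eZ_eZ

theorem RJ_RJ : C.RJ * C.RJ = 1 := by
  unfold RJ
  rw [← perm_mul, Ops_eJ_eJ, perm_one]

theorem star_RJ : star C.RJ = C.RJ := by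
  unfold RJ
  rw [star_perm, Ops_eJ_inv]

theorem em_em : C.em * C.em = C.em := by
  unfold em
  rw [smul_mul_smul_comm, sub_mul, mul_sub, mul_sub, one_mul, one_mul, mul_one, RJ_RJ]
  have h : (1 : Op C.EI) - C.RJ - (C.RJ - 1) = (2 : ℂ) • (1 - C.RJ) := by
    rw [two_smul]
    abel
  rw [h, smul_smul]
  norm_num

theorem star_em : star C.em = C.em := by
  unfold em
  rw [star_smul, star_sub, star_one, star_RJ]
  congr 1
  simp

theorem RJ_em : C.RJ * C.em = - C.em := by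
  unfold em
  rw [mul_smul_comm, mul_sub, mul_one, RJ_RJ, ← smul_neg, neg_sub]

theorem em_RJ : C.em * C.RJ = - C.em := by
  unfold em
  rw [smul_mul_assoc, sub_mul, one_mul, RJ_RJ, ← smul_neg, neg_sub]

theorem Zp_Zp : C.Zp * C.Zp = 1 := by
  unfold Zp
  rw [← perm_mul, Ops_eZ_eZ, perm_one]

theorem star_Zp : star C.Zp = C.Zp := by
  unfold Zp
  rw [star_perm, Ops_eZ_inv]

theorem RJ_Zp : C.RJ * C.Zp = C.Zp * C.RJ := by
  unfold RJ Zp
  rw [← perm_mul, ← perm_mul]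
  rfl

theorem em_Zp : C.em * C.Zp = C.Zp * C.em := by
  unfold em
  rw [smul_mul_assoc, mul_smul_comm, sub_mul, mul_sub, one_mul, mul_one, RJ_Zp]

theorem RJ_am (T : Op C.I) : C.RJ * C.am T = C.am T * C.RJ := by
  refine ContinuousLinearMap.ext fun ξ => ?_
  ext p
  rfl

theorem em_am (T : Op C.I) : C.em * C.am T = C.am T * C.em := by
  unfold em
  rw [smul_mul_assoc, mul_smul_comm, sub_mul, mul_sub, one_mul, mul_one, RJ_am]

/-- an operator commuting with the translation by `z` -/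
theorem Zp_am {T : Op C.I} (hT : Invt G T) : C.Zp * C.am T = C.am T * C.Zp := by
  have hz : C.z⁻¹ = C.z := inv_eq_of_mul_eq_one_right C.z_sq
  have h1 := invt_iff.1 hT C.z
  refine ContinuousLinearMap.ext fun ξ => ?_
  ext p
  have h2 : sec (K := Cl C.z) (I := C.I) p.1 (C.Zp ξ) =
      perm (MulAction.toPerm C.z) (sec (K := Cl C.z) (I := C.I) p.1 ξ) := by
    ext i
    rw [perm_apply]
    change ξ (p.1, C.z • i) = ξ (p.1, C.z⁻¹ • i)
    rw [hz]
  have h3 : T (perm (MulAction.toPerm C.z) (sec (K := Cl C.z) (I := C.I) p.1 ξ)) p.2 =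
      (T (sec (K := Cl C.z) (I := C.I) p.1 ξ)) (C.z⁻¹ • p.2) := by
    have h4 := congrArg (fun S : Op C.I => S (sec (K := Cl C.z) (I := C.I) p.1 ξ) p.2) h1
    exact h4
  rw [hz] at h3
  change T (sec (K := Cl C.z) (I := C.I) p.1 ξ) (C.z • p.2) =
    T (sec (K := Cl C.z) (I := C.I) p.1 (C.Zp ξ)) p.2
  rw [h2, h3]

end Cfg

end

end P089.AMC
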