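
import Mathlib
import Vale.Agent.Lib.P089.AM.Core.Ops

/-!
# P089 AM/Core: invariance, supports and the twisted trace
-/

namespace P089.AMC

open scoped Classical

noncomputable section

namespace Cfg

variable {G : Type} [Group G] (C : Cfg G)

theorem Ops2_perm {e : Equiv.Perm C.EI} (h : ∀ (k : C.KK) (q : C.EI), e (k • q) = k • e q) :
    Invt C.KK (perm e) := by
  intro k p q
  rw [ent_perm, ent_perm, h]
  by_cases hp : p = e q
  · rw [if_pos hp, if_pos (congrArg (fun r => k • r) hp)]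
  · rw [if_neg hp, if_neg]
    intro h2
    exact hp (smul_left_cancel k h2)

theorem invt_RJ : Invt C.KK C.RJ := by
  refine C.Ops2_perm fun k q => ?_
  obtain ⟨e, i, rfl⟩ := C.exists_pt q
  have h1 : C.eJ (C.pt e i) = C.pt (e * cJ C.z) i := rfl
  rw [h1, C.smul_def, C.smul_def, map_mul, cact_cJ, ← mul_assoc]
  rfl

theorem invt_em : Invt C.KK C.em := Invt.smul _ (Invt.one.sub C.invt_RJ)

theorem invt_Zp : Invt C.KK C.Zp := by
  refine C.Ops2_perm fun k q => ?_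
  obtain ⟨e, i, rfl⟩ := C.exists_pt q
  have h1 : C.eZ (C.pt e i) = C.pt e (C.z • i) := rfl
  rw [h1, C.smul_def, C.smul_def, ← mul_smul, ← C.z_central, mul_smul]
  rfl

theorem Ops2_ent_am (T : Op C.I) (e e' : Cl C.z) (i i' : C.I) :
    ent (C.am T) (C.pt e i) (C.pt e' i') = if e = e' then ent T i i' else 0 :=
  ent_amp (K := Cl C.z) T (e, i) (e', i')

theorem invt_am {T : Op C.I} (hT : Invt G T) : Invt C.KK (C.am T) := by
  intro k p q
  obtain ⟨e, i, rfl⟩ := C.exists_pt p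
  obtain ⟨e', i', rfl⟩ := C.exists_pt q
  rw [C.smul_def, C.smul_def, C.Ops2_ent_am, C.Ops2_ent_am, hT]
  by_cases h : e = e'
  · rw [if_pos h, if_pos (by rw [h])]
  · rw [if_neg h, if_neg]
    intro h2
    exact h ((cact C.z C.z_central k.right).injective (mul_left_cancel h2))

/-- the finite set of representatives -/
def FE (F : Finset C.I) : Finset C.EI := F.image (C.pt 1)

theorem Ops2_smul_one (e : Cl C.z) (g : G) (i : C.I) :
    (⟨e, g⟩ : C.KK) • C.pt 1 i = C.pt e (g • i) := by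
  rw [C.smul_def, map_one, mul_one]

theorem Ops2_inF {F : Finset C.I} (p : C.EI) : InF C.KK (C.FE F) p ↔ InF G F p.2 := by
  constructor
  · rintro ⟨k, q, hq, rfl⟩
    obtain ⟨i, hi, rfl⟩ := Finset.mem_image.1 hq
    exact ⟨k.right, i, hi, rfl⟩
  · rintro ⟨g, i, hi, hp⟩
    refine ⟨⟨p.1, g⟩, C.pt 1 i, Finset.mem_image_of_mem _ hi, ?_⟩
    rw [C.Ops2_smul_one, ← hp]
    rfl

theorem Ops2_inF_smul {F : Finset C.I} (g : G) {i : C.I} (h : InF G F i) : InF G F (g • i) := by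
  obtain ⟨g', f, hf, rfl⟩ := h
  exact ⟨g * g', f, hf, (mul_smul g g' f).symm⟩

theorem distinct_FE {F : Finset C.I} (hF : DistinctF G F) : DistinctF C.KK (C.FE F) := by
  intro p hp p' hp' k hk
  obtain ⟨i, hi, rfl⟩ := Finset.mem_image.1 hp
  obtain ⟨i', hi', rfl⟩ := Finset.mem_image.1 hp'
  have h1 : k.right • i = i' := congrArg Prod.snd hk
  rw [hF i hi i' hi' k.right h1]

theorem supp_am {F : Finset C.I} {T : Op C.I} (hT : SuppF G F T) : SuppF C.KK (C.FE F) (C.am T) := by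
  intro p q h
  obtain ⟨e, i, rfl⟩ := C.exists_pt p
  obtain ⟨e', i', rfl⟩ := C.exists_pt q
  rw [C.Ops2_ent_am] at h
  have h1 : ent T i i' ≠ 0 := by
    intro h0
    apply h
    rw [h0, ite_self]
  exact ⟨(C.Ops2_inF _).2 (hT i i' h1).1, (C.Ops2_inF _).2 (hT i i' h1).2⟩

theorem Ops2_exists {S T : Op C.EI} {p q : C.EI} (h : ent (S * T) p q ≠ 0) :
    ∃ k, ent S p k ≠ 0 ∧ ent T k q ≠ 0 := by
  by_contra hcon
  apply h
  rw [ent_mul]
  refine (tsum_congr fun k => ?_).trans tsum_zero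
  by_contra h1
  exact hcon ⟨k, left_ne_zero_of_mul h1, right_ne_zero_of_mul h1⟩

/-- the other operators preserve the orbits: right and left multiplication -/
theorem supp_mul {F : Finset C.I} {S T : Op C.EI} (hT : SuppF C.KK (C.FE F) T)
    (hS : ∀ p q : C.EI, ent S p q ≠ 0 → (p.2 = q.2 ∨ p.2 = C.z • q.2)) :
    SuppF C.KK (C.FE F) (S * T) := by
  intro p q h
  obtain ⟨k, h1, h2⟩ := C.Ops2_exists h
  obtain ⟨h3, h4⟩ := hT k q h2
  refine ⟨(C.Ops2_inF p).2 ?_, h4⟩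
  rcases hS p k h1 with h5 | h5
  · rw [h5]
    exact (C.Ops2_inF k).1 h3
  · rw [h5]
    exact C.Ops2_inF_smul C.z ((C.Ops2_inF k).1 h3)

theorem supp_mul_right {F : Finset C.I} {S T : Op C.EI} (hT : SuppF C.KK (C.FE F) T)
    (hS : ∀ p q : C.EI, ent S p q ≠ 0 → (p.2 = q.2 ∨ p.2 = C.z • q.2)) :
    SuppF C.KK (C.FE F) (T * S) := by
  intro p q h
  obtain ⟨k, h1, h2⟩ := C.Ops2_exists h
  obtain ⟨h3, h4⟩ := hT p k h1
  refine ⟨h3, (C.Ops2_inF q).2 ?_⟩
  have h6 := (C.Ops2_inF k).1 h4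
  rcases hS k q h2 with h5 | h5
  · rw [← h5]
    exact h6
  · rw [h5] at h6
    have h7 := C.Ops2_inF_smul C.z h6
    rwa [← mul_smul, C.z_sq, one_smul] at h7

theorem ent_em_ne {p q : C.EI} (h : ent C.em p q ≠ 0) : p.2 = q.2 := by
  by_contra hne
  apply h
  have h1 : ent (1 : Op C.EI) p q = 0 := by
    rw [ent_one, if_neg]
    rintro rfl
    exact hne rfl
  have h2 : ent C.RJ p q = 0 := by
    unfold RJ
    rw [ent_perm, if_neg]
    rintro rfl
    exact hne rfl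
  unfold em
  rw [ent_smul, ent_sub, h1, h2, sub_zero, mul_zero]

theorem ent_Zp_ne {p q : C.EI} (h : ent C.Zp p q ≠ 0) : p.2 = C.z • q.2 := by
  unfold Zp at h
  rw [ent_perm] at h
  by_contra hne
  apply h
  rw [if_neg]
  rintro rfl
  exact hne rfl

/-- the trace of `em Zp (1 ⊗ T)` -/
theorem trF_em_Zp_am {F : Finset C.I} (T : Op C.I) :
    trF (C.FE F) (C.em * (C.Zp * C.am T)) = (1 / 2 : ℂ) * ∑ i ∈ F, ent T (C.z • i) i := by
  have hinj : Set.InjOn (C.pt 1) (F : Set C.I) := fun i _ i' _ h => congrArg Prod.snd h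
  unfold trF FE
  rw [Finset.sum_image hinj, Finset.mul_sum]
  refine Finset.sum_congr rfl fun i _ => ?_
  have h1 : C.em * (C.Zp * C.am T) = (1 / 2 : ℂ) • (C.Zp * C.am T - C.RJ * (C.Zp * C.am T)) := by
    unfold em
    rw [smul_mul_assoc, sub_mul, one_mul]
  have h2 : ∀ (e e' : Cl C.z) (i' : C.I), ent (C.Zp * C.am T) (C.pt e i) (C.pt e' i') =
      if e = e' then ent T (C.z • i) i' else 0 := by
    intro e e' i'
    have h3 : C.eZ.symm (C.pt e i) = C.pt e (C.z • i) := rfl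
    unfold Zp
    rw [ent_perm_mul, h3, C.Ops2_ent_am]
  have h4 : ent (C.RJ * (C.Zp * C.am T)) (C.pt 1 i) (C.pt 1 i) = 0 := by
    have h3 : C.eJ.symm (C.pt 1 i) = C.pt (1 * cJ C.z) i := rfl
    unfold RJ
    rw [ent_perm_mul, h3, one_mul, h2, if_neg (cJ_ne_one C.z (C.z_ne_one i) C.z_sq)]
  rw [h1, ent_smul, ent_sub, h4, sub_zero, h2, if_pos rfl]

end Cfg

end

end P089.AMC
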