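
import Mathlib
import Vale.Agent.Lib.P089.AM.Core.Ops2

/-!
# P089 AM/Core: the Clifford multiplication `Ch`
-/

namespace P089.AMC

open scoped Classical

noncomputable section

namespace Cfg

variable {G : Type} [Group G] (C : Cfg G)

theorem Ch_x_le_one (i : C.I) (w : G) : C.x i w ≤ 1 := by
  have h := C.x_sum i
  rw [Finsupp.sum] at h
  by_cases hw : w ∈ (C.x i).support
  · rw [← h]
    exact Finset.single_le_sum (f := fun a => C.x i a) (fun a _ => C.x_nonneg i a) hw
  · rw [Finsupp.notMem_support_iff.mp hw]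
    exact zero_le_one

theorem Ch_norm_sqrt (i : C.I) (w : G) : ‖((Real.sqrt (C.x i w) : ℝ) : ℂ)‖ ≤ 1 := by
  rw [Complex.norm_real, Real.norm_eq_abs, abs_of_nonneg (Real.sqrt_nonneg _)]
  calc Real.sqrt (C.x i w) ≤ Real.sqrt 1 := Real.sqrt_le_sqrt (C.Ch_x_le_one i w)
    _ = 1 := Real.sqrt_one

theorem Ch_sum_apply {ι : Type} (s : Finset ι) (T : ι → Op C.EI) (ξ : L2 C.EI) (p : C.EI) :
    (∑ k ∈ s, T k) ξ p = ∑ k ∈ s, (T k ξ) p := by
  induction s using Finset.induction_on with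
  | empty => rfl
  | insert a s ha ih =>
    rw [Finset.sum_insert ha, Finset.sum_insert ha, ← ih]
    rfl

/-- the function `h ↦ v0 i * h` maps the `h` in `Es` with nonzero coefficient bijectively onto the support -/
theorem Ch_sum_Es {M : Type} [AddCommMonoid M] (i : C.I) (F : G → M)
    (hF : ∀ w, C.x i w = 0 → F w = 0) :
    ∑ h ∈ C.Es, F (C.v0 i * h) = ∑ w ∈ (C.x i).support, F w := by
  have h1 : ∑ h ∈ C.Es, F (C.v0 i * h) = ∑ w ∈ C.Es.image (fun h => C.v0 i * h), F w := by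
    rw [Finset.sum_image]
    intro a _ b _ hab
    exact mul_left_cancel hab
  rw [h1]
  symm
  apply Finset.sum_subset
  · intro w hw
    rw [Finset.mem_image]
    refine ⟨(C.v0 i)⁻¹ * w, C.x_supp i _ _ (C.v0_spec i) (Finsupp.mem_support_iff.mp hw), ?_⟩
    rw [mul_inv_cancel_left]
  · intro w _ hw
    exact hF w (Finsupp.notMem_support_iff.mp hw)

/-- `h ↦ v0 i * h` maps the `h` in `Es` with nonzero coefficient bijectively onto the support -/
theorem Ch_apply (ξ : L2 C.EI) (e : Cl C.z) (i : C.I) :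
    C.Ch ξ (C.pt e i) = ∑ w ∈ (C.x i).support,
      ((Real.sqrt (C.x i w) : ℝ) : ℂ) * ξ (C.pt (e * cc C.z w) i) := by
  rw [← C.Ch_sum_Es i (fun w => ((Real.sqrt (C.x i w) : ℝ) : ℂ) * ξ (C.pt (e * cc C.z w) i))]
  · rw [Ch, Ch_sum_apply]
    refine Finset.sum_congr rfl fun h _ => ?_
    have hb : ∀ p : C.EI, ‖((Real.sqrt (C.x p.2 (C.v0 p.2 * h)) : ℝ) : ℂ)‖ ≤ 1 := fun p =>
      C.Ch_norm_sqrt p.2 _
    change (perm (C.eC fun i => C.v0 i * h))
      ((dg (fun p : C.EI => ((Real.sqrt (C.x p.2 (C.v0 p.2 * h)) : ℝ) : ℂ))) ξ) (C.pt e i) = _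
    rw [perm_apply]
    have h2 : (C.eC fun i => C.v0 i * h).symm (C.pt e i) = C.pt (e * cc C.z (C.v0 i * h)) i := rfl
    rw [h2, dg_apply hb]
    rfl
  · intro w hw
    change ((Real.sqrt (C.x i w) : ℝ) : ℂ) * _ = 0
    rw [hw, Real.sqrt_zero, Complex.ofReal_zero, zero_mul]

theorem Ch_pt_inj {e e' : Cl C.z} {i j : C.I} : C.pt e i = C.pt e' j ↔ e = e' ∧ i = j := by
  constructor
  · intro h
    exact ⟨congrArg Prod.fst h, congrArg Prod.snd h⟩
  · rintro ⟨rfl, rfl⟩
    rfl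

theorem ent_Ch (e e' : Cl C.z) (i j : C.I) :
    ent C.Ch (C.pt e i) (C.pt e' j) = if i = j then
      ∑ w ∈ (C.x i).support, (if e * cc C.z w = e' then ((Real.sqrt (C.x i w) : ℝ) : ℂ) else 0)
      else 0 := by
  rw [ent, Ch_apply]
  by_cases h : i = j
  · rw [if_pos h]
    refine Finset.sum_congr rfl fun w _ => ?_
    rw [dl_apply]
    by_cases h2 : e * cc C.z w = e'
    · rw [if_pos h2, if_pos ((C.Ch_pt_inj).mpr ⟨h2, h⟩), mul_one]
    · rw [if_neg h2, if_neg (fun h3 => h2 ((C.Ch_pt_inj).mp h3).1), mul_zero]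
  · rw [if_neg h]
    refine Finset.sum_eq_zero fun w _ => ?_
    rw [dl_apply, if_neg (fun h3 => h ((C.Ch_pt_inj).mp h3).2), mul_zero]

theorem ent_Ch_ne {p q : C.EI} (h : ent C.Ch p q ≠ 0) : p.2 = q.2 := by
  by_contra hne
  apply h
  change ent C.Ch (C.pt p.1 p.2) (C.pt q.1 q.2) = 0
  rw [ent_Ch, if_neg hne]

theorem Ch_star_ite (P : Prop) (r : ℝ) :
    star (if P then ((r : ℝ) : ℂ) else 0) = if P then ((r : ℝ) : ℂ) else 0 := by
  by_cases h : P
  · rw [if_pos h]
    exact Complex.conj_ofReal r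
  · rw [if_neg h, star_zero]

theorem star_Ch : star C.Ch = C.Ch := by
  apply op_ext
  intro p q
  rw [ent_star]
  change star (ent C.Ch (C.pt q.1 q.2) (C.pt p.1 p.2)) = ent C.Ch (C.pt p.1 p.2) (C.pt q.1 q.2)
  rw [ent_Ch, ent_Ch]
  by_cases h : p.2 = q.2
  · rw [if_pos h, if_pos h.symm, star_sum, ← h]
    refine Finset.sum_congr rfl fun w _ => ?_
    rw [Ch_star_ite]
    have h2 : (q.1 * cc C.z w = p.1) ↔ (p.1 * cc C.z w = q.1) := by
      constructor
      · intro h3
        rw [← h3, mul_assoc, cc_mul_self, mul_one]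
      · intro h3
        rw [← h3, mul_assoc, cc_mul_self, mul_one]
    by_cases h3 : q.1 * cc C.z w = p.1
    · rw [if_pos h3, if_pos (h2.mp h3)]
    · rw [if_neg h3, if_neg (fun h4 => h3 (h2.mpr h4))]
  · rw [if_neg h, if_neg (fun h2 => h h2.symm), star_zero]

theorem Ch_supp_smul (g : G) (i : C.I) :
    (C.x (g • i)).support = (C.x i).support.image (fun v => g * v) := by
  ext w
  rw [Finset.mem_image]
  constructor
  · intro hw
    refine ⟨g⁻¹ * w, ?_, ?_⟩
    · rw [Finsupp.mem_support_iff] at hw ⊢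
      rwa [← C.x_equiv g i, mul_inv_cancel_left]
    · rw [mul_inv_cancel_left]
  · rintro ⟨v, hv, rfl⟩
    rw [Finsupp.mem_support_iff] at hv ⊢
    rwa [C.x_equiv]

theorem invt_Ch : Invt C.KK C.Ch := by
  intro k p q
  change ent C.Ch (k • C.pt p.1 p.2) (k • C.pt q.1 q.2) = ent C.Ch (C.pt p.1 p.2) (C.pt q.1 q.2)
  rw [smul_def, smul_def, ent_Ch, ent_Ch]
  by_cases h : p.2 = q.2
  · rw [if_pos h, if_pos (congrArg (fun y => k.right • y) h), Ch_supp_smul, Finset.sum_image]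
    · refine Finset.sum_congr rfl fun w _ => ?_
      rw [C.x_equiv]
      have h2 : (k.left * cact C.z C.z_central k.right p.1 * cc C.z (k.right * w) =
          k.left * cact C.z C.z_central k.right q.1) ↔ (p.1 * cc C.z w = q.1) := by
        rw [← cact_cc C.z C.z_central, mul_assoc, ← map_mul, mul_right_inj]
        exact (cact C.z C.z_central k.right).injective.eq_iff
      by_cases h3 : p.1 * cc C.z w = q.1
      · rw [if_pos h3, if_pos (h2.mpr h3)]
      · rw [if_neg h3, if_neg (fun h4 => h3 (h2.mp h4))]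
    · intro a _ b _ hab
      exact mul_left_cancel hab
  · rw [if_neg h, if_neg]
    intro h2
    exact h (MulAction.injective k.right h2)

end Cfg

end

end P089.AMC
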