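
import Mathlib
import Vale.Agent.Lib.P089.AM.Core.Ch

/-!
# P089 AM/Core: algebraic identities of the Clifford multiplication
-/

namespace P089.AMC

open scoped Classical

noncomputable section

namespace Cfg

variable {G : Type} [Group G] (C : Cfg G)

theorem Ch2_ext {S T : Op C.EI} (h : ∀ (ξ : L2 C.EI) (e : Cl C.z) (i : C.I),
    S ξ (C.pt e i) = T ξ (C.pt e i)) : S = T := by
  refine ContinuousLinearMap.ext fun ξ => lp.ext (funext fun p => ?_)
  obtain ⟨e, i, rfl⟩ := C.exists_pt p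
  exact h ξ e i

theorem Ch2_em_apply (ξ : L2 C.EI) (e : Cl C.z) (i : C.I) :
    C.em ξ (C.pt e i) = (1 / 2 : ℂ) * (ξ (C.pt e i) - ξ (C.pt (e * cJ C.z) i)) := rfl

theorem RJ_Ch : C.RJ * C.Ch = C.Ch * C.RJ := by
  refine C.Ch2_ext fun ξ e i => ?_
  change C.RJ (C.Ch ξ) (C.pt e i) = C.Ch (C.RJ ξ) (C.pt e i)
  rw [RJ_apply, Ch_apply, Ch_apply]
  refine Finset.sum_congr rfl fun w _ => ?_
  rw [RJ_apply, mul_assoc, cJ_comm_cc, mul_assoc]

theorem em_Ch : C.em * C.Ch = C.Ch * C.em := by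
  have h : C.em = (1 / 2 : ℂ) • (1 - C.RJ) := rfl
  rw [h, smul_mul_assoc, mul_smul_comm, sub_mul, mul_sub, one_mul, mul_one, RJ_Ch]

theorem Ch_Zp : C.Ch * C.Zp = C.RJ * (C.Zp * C.Ch) := by
  refine C.Ch2_ext fun ξ e i => ?_
  change C.Ch (C.Zp ξ) (C.pt e i) = C.RJ (C.Zp (C.Ch ξ)) (C.pt e i)
  rw [RJ_apply, Zp_apply, Ch_apply, Ch_apply]
  refine Finset.sum_nbij' (fun w => C.z * w) (fun w => C.z⁻¹ * w) (fun w hw => ?_)
    (fun w hw => ?_) (fun w _ => inv_mul_cancel_left _ _) (fun w _ => mul_inv_cancel_left _ _)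
    (fun w _ => ?_)
  · rw [Finsupp.mem_support_iff] at hw ⊢
    rwa [C.x_equiv]
  · rw [Finsupp.mem_support_iff] at hw ⊢
    have h := C.x_equiv C.z i (C.z⁻¹ * w)
    rw [mul_inv_cancel_left] at h
    rwa [← h]
  · rw [Zp_apply, C.x_equiv, cc_z]
    congr 3
    rw [mul_assoc, ← mul_assoc (cJ C.z), cJ_mul_self, one_mul]

/-- the cross terms cancel on `J = -1`: `c v c w = J c w c v` for `v ≠ w` in the support -/
theorem Ch_Ch_em : C.Ch * (C.Ch * C.em) = C.em := by
  refine C.Ch2_ext fun ξ e i => ?_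
  change C.Ch (C.Ch (C.em ξ)) (C.pt e i) = C.em ξ (C.pt e i)
  have hJ : ∀ e' : Cl C.z, C.em ξ (C.pt (e' * cJ C.z) i) = -C.em ξ (C.pt e' i) := fun e' => by
    rw [Ch2_em_apply, Ch2_em_apply, mul_assoc, cJ_mul_self, mul_one]
    ring
  obtain ⟨η, hη⟩ : ∃ η : Cl C.z → ℂ, ∀ e', C.em ξ (C.pt e' i) = η e' := ⟨_, fun _ => rfl⟩
  have hJ' : ∀ e' : Cl C.z, η (e' * cJ C.z) = -η e' := fun e' => by rw [← hη, ← hη, hJ]
  obtain ⟨a, ha⟩ : ∃ a : G → ℂ, ∀ w, ((Real.sqrt (C.x i w) : ℝ) : ℂ) = a w := ⟨_, fun _ => rfl⟩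
  have h1 : C.Ch (C.Ch (C.em ξ)) (C.pt e i) = ∑ v ∈ (C.x i).support, ∑ w ∈ (C.x i).support,
      a v * (a w * η (e * cc C.z v * cc C.z w)) := by
    rw [Ch_apply]
    refine Finset.sum_congr rfl fun v _ => ?_
    rw [Ch_apply, Finset.mul_sum]
    refine Finset.sum_congr rfl fun w _ => ?_
    rw [hη, ha, ha]
  have h2 : ∀ v ∈ (C.x i).support, ∀ w ∈ (C.x i).support,
      a v * (a w * η (e * cc C.z v * cc C.z w)) + a w * (a v * η (e * cc C.z w * cc C.z v)) =
        if v = w then 2 * (a v * a v * η e) else 0 := by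
    intro v hv w hw
    by_cases hvw : v = w
    · subst hvw
      rw [if_pos rfl, mul_assoc e, cc_mul_self, mul_one]
      ring
    · rw [if_neg hvw]
      have hz : w ≠ C.z * v := by
        intro e'
        have h3 := C.x_supp i v w (Finsupp.mem_support_iff.1 hv) (Finsupp.mem_support_iff.1 hw)
        rw [e', C.z_central, inv_mul_cancel_left] at h3
        exact C.z_notMem h3
      have h4 : e * cc C.z v * cc C.z w = e * cc C.z w * cc C.z v * cJ C.z := by
        rw [mul_assoc e, cc_anti C.z (Ne.symm hvw) hz, cJ_central, ← mul_assoc, ← mul_assoc]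
      rw [h4, hJ']
      ring
  have h3 : (∑ v ∈ (C.x i).support, ∑ w ∈ (C.x i).support,
      a v * (a w * η (e * cc C.z v * cc C.z w))) +
      (∑ v ∈ (C.x i).support, ∑ w ∈ (C.x i).support,
      a v * (a w * η (e * cc C.z v * cc C.z w))) =
      ∑ v ∈ (C.x i).support, 2 * (a v * a v * η e) := by
    rw [← Finset.sum_congr rfl fun v hv => Finset.sum_ite_eq (C.x i).support v
      (fun w => 2 * (a v * a v * η e)) |>.trans (if_pos hv)]
    conv_lhs => arg 2; rw [Finset.sum_comm]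
    rw [← Finset.sum_add_distrib]
    refine Finset.sum_congr rfl fun v hv => ?_
    rw [← Finset.sum_add_distrib]
    exact Finset.sum_congr rfl fun w hw => h2 v hv w hw
  have h5 : ∑ v ∈ (C.x i).support, 2 * (a v * a v * η e) = 2 * η e := by
    have h6 : ∑ v ∈ (C.x i).support, a v * a v = 1 := by
      have h7 : ∀ v, a v * a v = ((C.x i v : ℝ) : ℂ) := fun v => by
        rw [← ha, ← Complex.ofReal_mul, Real.mul_self_sqrt (C.x_nonneg i v)]
      rw [Finset.sum_congr rfl fun v _ => h7 v, ← Complex.ofReal_sum]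
      have h8 := C.x_sum i
      unfold Finsupp.sum at h8
      rw [h8, Complex.ofReal_one]
    rw [← Finset.mul_sum, ← Finset.sum_mul, h6, one_mul]
  rw [h1, hη]
  rw [h5] at h3
  linear_combination h3 / 2

end Cfg

end

end P089.AMC
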