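
import Mathlib
import Vale.Agent.Lib.P089.AM.Core.L2P

/-!
# P089 AM/Core: norm of a locally finite sum of local operators

For `ξ`: `|T ξ i|² ≤ m Σ_{w ∈ N i} |S w ξ i|²`, `S w ξ = S w (q_w ξ)` with `q_w` the restriction to
`{j | w ∈ N j}`, so `‖T ξ‖² ≤ m Σ_w ‖S w (q_w ξ)‖² ≤ m s² Σ_w ‖q_w ξ‖² ≤ m² s² ‖ξ‖²`.
(It is enough to test on finitely supported `ξ` and `η` in `|⟨η, T ξ⟩| ≤ m s ‖η‖ ‖ξ‖`, then all sums over
`w` are finite: `Σ_w |⟨q_w η, S w q_w ξ⟩| ≤ s Σ_w ‖q_w η‖ ‖q_w ξ‖ ≤ s m ‖η‖ ‖ξ‖`.)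
-/

namespace P089.AMC

open scoped Classical

noncomputable section

variable {J : Type}

private theorem AO_nsq (ξ : L2 J) : HasSum (fun i => ‖ξ i‖ ^ 2) (‖ξ‖ ^ 2) := by
  have h := lp.hasSum_norm (p := 2) (by norm_num) ξ
  have e : (2 : ENNReal).toReal = ((2 : ℕ) : ℝ) := by norm_num
  rw [e] at h
  simpa only [Real.rpow_natCast] using h

private theorem AO_mem (A : Set J) (ξ : L2 J) : Memℓp (fun j => if j ∈ A then ξ j else 0) 2 := by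
  have hp : 0 < (2 : ENNReal).toReal := by norm_num
  have h1 : Summable fun i => ‖ξ i‖ ^ (2 : ENNReal).toReal := (lp.memℓp ξ).summable hp
  refine memℓp_gen (Summable.of_nonneg_of_le (fun i => ?_) (fun i => ?_) h1)
  · exact Real.rpow_nonneg (norm_nonneg _) _
  · refine Real.rpow_le_rpow (norm_nonneg _) ?_ hp.le
    show ‖(if i ∈ A then ξ i else 0 : ℂ)‖ ≤ ‖ξ i‖
    split
    · exact le_rfl
    · rw [norm_zero]
      exact norm_nonneg _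

/-- the restriction of `ξ` to a set -/
private def AO_q (A : Set J) (ξ : L2 J) : L2 J := ⟨fun j => if j ∈ A then ξ j else 0, AO_mem A ξ⟩

private theorem AO_q_apply (A : Set J) (ξ : L2 J) (j : J) :
    AO_q A ξ j = if j ∈ A then ξ j else 0 := rfl

private theorem AO_cut {Wt : Type} (S : Wt → Op J) (N : J → Finset Wt)
    (hS : ∀ w i j, ent (S w) i j ≠ 0 → w ∈ N i ∧ w ∈ N j) (w : Wt) (ξ : L2 J) (i : J) :
    S w (AO_q {j | w ∈ N j} ξ) i = S w ξ i := by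
  have h1 := hasSum_apply (S w) ξ i
  have h2 := hasSum_apply (S w) (AO_q {j | w ∈ N j} ξ) i
  refine h2.unique (h1.congr_fun fun j => ?_)
  rw [AO_q_apply]
  by_cases h : w ∈ N j
  · rw [if_pos (by exact h)]
  · have h3 : ent (S w) i j = 0 := by
      by_contra h4
      exact h (hS w i j h4).2
    rw [h3, zero_mul, zero_mul]

private theorem AO_expand {Wt : Type} (T : Op J) (S : Wt → Op J) (N : J → Finset Wt)
    (hT : ∀ i j, ent T i j = ∑ w ∈ N i, ent (S w) i j) (ξ : L2 J) (i : J) :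
    T ξ i = ∑ w ∈ N i, S w ξ i := by
  have h1 := hasSum_apply T ξ i
  have h2 : HasSum (fun j => ∑ w ∈ N i, ent (S w) i j * ξ j) (∑ w ∈ N i, S w ξ i) :=
    hasSum_sum fun w _ => hasSum_apply (S w) ξ i
  refine h1.unique (h2.congr_fun fun j => ?_)
  rw [hT, Finset.sum_mul]

theorem norm_le_of_local {Wt : Type} (T : Op J) (S : Wt → Op J) (N : J → Finset Wt) (m : ℕ) (s : ℝ)
    (hs0 : 0 ≤ s) (hcard : ∀ i, (N i).card ≤ m)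
    (hS : ∀ w i j, ent (S w) i j ≠ 0 → w ∈ N i ∧ w ∈ N j) (hs : ∀ w, ‖S w‖ ≤ s)
    (hT : ∀ i j, ent T i j = ∑ w ∈ N i, ent (S w) i j) : ‖T‖ ≤ m * s := by
  have hms : 0 ≤ (m : ℝ) * s := mul_nonneg (Nat.cast_nonneg m) hs0
  refine ContinuousLinearMap.opNorm_le_bound T hms fun ξ => ?_
  have hC : 0 ≤ (m : ℝ) * s * ‖ξ‖ := mul_nonneg hms (norm_nonneg _)
  refine lp.norm_le_of_forall_sum_le (p := 2) (by norm_num) hC fun F => ?_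
  have e : (2 : ENNReal).toReal = ((2 : ℕ) : ℝ) := by norm_num
  rw [e]
  simp only [Real.rpow_natCast]
  -- pointwise bound
  have h1 : ∀ i, ‖T ξ i‖ ^ 2 ≤
      (m : ℝ) * ∑ w ∈ N i, ‖S w (AO_q {j | w ∈ N j} ξ) i‖ ^ 2 := by
    intro i
    rw [AO_expand T S N hT]
    have h2 : ‖∑ w ∈ N i, S w ξ i‖ ≤ ∑ w ∈ N i, ‖S w ξ i‖ := norm_sum_le _ _
    have h3 : (∑ w ∈ N i, ‖S w ξ i‖) ^ 2 ≤ ((N i).card : ℝ) * ∑ w ∈ N i, ‖S w ξ i‖ ^ 2 :=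
      sq_sum_le_card_mul_sum_sq
    have h4 : (0 : ℝ) ≤ ∑ w ∈ N i, ‖S w ξ i‖ ^ 2 := Finset.sum_nonneg fun w _ => sq_nonneg _
    have h5 : ((N i).card : ℝ) ≤ (m : ℝ) := Nat.cast_le.2 (hcard i)
    calc ‖∑ w ∈ N i, S w ξ i‖ ^ 2 ≤ (∑ w ∈ N i, ‖S w ξ i‖) ^ 2 :=
          pow_le_pow_left₀ (norm_nonneg _) h2 2
      _ ≤ ((N i).card : ℝ) * ∑ w ∈ N i, ‖S w ξ i‖ ^ 2 := h3
      _ ≤ (m : ℝ) * ∑ w ∈ N i, ‖S w ξ i‖ ^ 2 := mul_le_mul_of_nonneg_right h5 h4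
      _ = (m : ℝ) * ∑ w ∈ N i, ‖S w (AO_q {j | w ∈ N j} ξ) i‖ ^ 2 := by
          congr 1
          refine Finset.sum_congr rfl fun w _ => ?_
          rw [AO_cut S N hS]
  -- exchange the sums
  set WF : Finset Wt := F.biUnion N with hWF
  have h2 : ∑ i ∈ F, ∑ w ∈ N i, ‖S w (AO_q {j | w ∈ N j} ξ) i‖ ^ 2 ≤
      ∑ w ∈ WF, ‖S w (AO_q {j | w ∈ N j} ξ)‖ ^ 2 := by
    have h3 : ∀ i ∈ F, ∑ w ∈ N i, ‖S w (AO_q {j | w ∈ N j} ξ) i‖ ^ 2 ≤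
        ∑ w ∈ WF, ‖S w (AO_q {j | w ∈ N j} ξ) i‖ ^ 2 := fun i hi =>
      Finset.sum_le_sum_of_subset_of_nonneg (Finset.subset_biUnion_of_mem N hi)
        fun w _ _ => sq_nonneg _
    refine (Finset.sum_le_sum h3).trans ?_
    rw [Finset.sum_comm]
    refine Finset.sum_le_sum fun w _ => ?_
    exact sum_le_hasSum F (fun i _ => sq_nonneg _) (AO_nsq (S w (AO_q {j | w ∈ N j} ξ)))
  have h3 : ∑ w ∈ WF, ‖S w (AO_q {j | w ∈ N j} ξ)‖ ^ 2 ≤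
      s ^ 2 * ∑ w ∈ WF, ‖AO_q {j | w ∈ N j} ξ‖ ^ 2 := by
    rw [Finset.mul_sum]
    refine Finset.sum_le_sum fun w _ => ?_
    rw [← mul_pow]
    refine pow_le_pow_left₀ (norm_nonneg _) ?_ 2
    exact ((S w).le_opNorm _).trans (mul_le_mul_of_nonneg_right (hs w) (norm_nonneg _))
  have h4 : ∑ w ∈ WF, ‖AO_q {j | w ∈ N j} ξ‖ ^ 2 ≤ (m : ℝ) * ‖ξ‖ ^ 2 := by
    have h5 : HasSum (fun j => ∑ w ∈ WF, ‖AO_q {j | w ∈ N j} ξ j‖ ^ 2)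
        (∑ w ∈ WF, ‖AO_q {j | w ∈ N j} ξ‖ ^ 2) :=
      hasSum_sum fun w _ => AO_nsq (AO_q {j | w ∈ N j} ξ)
    refine hasSum_le (fun j => ?_) h5 ((AO_nsq ξ).mul_left (m : ℝ))
    have h6 : ∑ w ∈ WF, ‖AO_q {j | w ∈ N j} ξ j‖ ^ 2 ≤ ∑ w ∈ N j, ‖ξ j‖ ^ 2 := by
      have h7 : ∑ w ∈ WF, ‖AO_q {j | w ∈ N j} ξ j‖ ^ 2 =
          ∑ w ∈ WF.filter (fun w => w ∈ N j), ‖ξ j‖ ^ 2 := by
        rw [Finset.sum_filter]
        refine Finset.sum_congr rfl fun w _ => ?_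
        rw [AO_q_apply]
        by_cases h : w ∈ N j
        · rw [if_pos h, if_pos (by exact h)]
        · rw [if_neg h, if_neg (by exact h), norm_zero]
          norm_num
      rw [h7]
      exact Finset.sum_le_sum_of_subset_of_nonneg
        (fun w hw => (Finset.mem_filter.1 hw).2) fun w _ _ => sq_nonneg _
    refine h6.trans ?_
    rw [Finset.sum_const, nsmul_eq_mul]
    exact mul_le_mul_of_nonneg_right (Nat.cast_le.2 (hcard j)) (sq_nonneg _)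
  calc ∑ i ∈ F, ‖T ξ i‖ ^ 2 ≤
      ∑ i ∈ F, (m : ℝ) * ∑ w ∈ N i, ‖S w (AO_q {j | w ∈ N j} ξ) i‖ ^ 2 :=
        Finset.sum_le_sum fun i _ => h1 i
    _ = (m : ℝ) * ∑ i ∈ F, ∑ w ∈ N i, ‖S w (AO_q {j | w ∈ N j} ξ) i‖ ^ 2 := by
        rw [Finset.mul_sum]
    _ ≤ (m : ℝ) * (s ^ 2 * ((m : ℝ) * ‖ξ‖ ^ 2)) :=
        mul_le_mul_of_nonneg_left (h2.trans (h3.trans
          (mul_le_mul_of_nonneg_left h4 (sq_nonneg s)))) (Nat.cast_nonneg m)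
    _ = ((m : ℝ) * s * ‖ξ‖) ^ 2 := by ring

end

end P089.AMC
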