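
import Mathlib
import Vale.Agent.Lib.P089.AM.Core.L2P

/-!
# P089 AM/Core: commutator of a diagonal operator with an operator of small propagation

Put `k i = ⌊f i / δ⌋`, `g i = δ k i`.  Then `|f - g| ≤ δ`, so `‖[f - g, a]‖ ≤ 2 δ ‖a‖`.  If `a i j ≠ 0` then
`n = k i - k j` is `-1`, `0` or `1`.  With `ω = exp (2 π I / 3)` one has for these `n`:
`3 n = (ω⁻¹ - ω) ω ^ n + (ω⁻² - ω²) ω ^ (2 n)`, hence (comparing entries)
`[g, a] = (δ / 3) ((ω⁻¹ - ω) D a D⁻¹ + (ω⁻² - ω²) D² a D⁻²)` with `D = dg (ω ^ k i)`, and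
`‖[g, a]‖ ≤ (δ / 3) (2 √3) ‖a‖ ≤ 2 δ ‖a‖`.
-/

namespace P089.AMC

open scoped Classical

noncomputable section

variable {J : Type}

/-- powers of `I` detect `-1, 0, 1` -/
private theorem ScalComm_key {n : ℤ} (hn : |n| ≤ 1) :
    (2 * Complex.I) * (n : ℂ) = Complex.I ^ n - Complex.I ^ (-n) := by
  rw [abs_le] at hn
  obtain ⟨h1, h2⟩ := hn
  have h3 : n = -1 ∨ n = 0 ∨ n = 1 := by omega
  rcases h3 with rfl | rfl | rfl
  · rw [neg_neg, zpow_one, zpow_neg_one, Complex.inv_I]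
    push_cast
    ring
  · simp
  · rw [zpow_one, zpow_neg_one, Complex.inv_I]
    push_cast
    ring

private theorem ScalComm_floor {x y : ℝ} (h : |x - y| ≤ 1) : |⌊x⌋ - ⌊y⌋| ≤ 1 := by
  rw [abs_le] at h ⊢
  have h1 : ⌊x⌋ ≤ ⌊y⌋ + 1 := by
    rw [← Int.floor_add_one]
    exact Int.floor_le_floor (by linarith [h.2])
  have h2 : ⌊y⌋ ≤ ⌊x⌋ + 1 := by
    rw [← Int.floor_add_one]
    exact Int.floor_le_floor (by linarith [h.1])
  constructor <;> omega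

private theorem ScalComm_comm_le {f : J → ℂ} {C : ℝ} (hC : 0 ≤ C) (hf : ∀ j, ‖f j‖ ≤ C) (a : Op J) :
    ‖dg f * a - a * dg f‖ ≤ 2 * C * ‖a‖ := by
  have h1 := norm_dg_le hC hf
  calc ‖dg f * a - a * dg f‖ ≤ ‖dg f * a‖ + ‖a * dg f‖ := norm_sub_le _ _
    _ ≤ ‖dg f‖ * ‖a‖ + ‖a‖ * ‖dg f‖ := add_le_add (norm_mul_le _ _) (norm_mul_le _ _)
    _ ≤ C * ‖a‖ + ‖a‖ * C := by gcongr
    _ = 2 * C * ‖a‖ := by ring

private theorem ScalComm_int {k : J → ℤ} {δ : ℝ} (hδ : 0 < δ) {C : ℝ}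
    (hC : ∀ j, ‖((δ : ℝ) : ℂ) * (k j : ℂ)‖ ≤ C) {a : Op J}
    (h : ∀ i j, ent a i j ≠ 0 → |k i - k j| ≤ 1) :
    ‖dg (fun j => ((δ : ℝ) : ℂ) * (k j : ℂ)) * a - a * dg (fun j => ((δ : ℝ) : ℂ) * (k j : ℂ))‖ ≤
      2 * δ * ‖a‖ := by
  have hD : ∀ j, ‖Complex.I ^ (k j)‖ ≤ 1 := fun j => by
    rw [norm_zpow, Complex.norm_I, one_zpow]
  have hD' : ∀ j, ‖Complex.I ^ (-(k j))‖ ≤ 1 := fun j => by
    rw [norm_zpow, Complex.norm_I, one_zpow]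
  set D : Op J := dg fun j => Complex.I ^ (k j) with hDdef
  set D' : Op J := dg fun j => Complex.I ^ (-(k j)) with hD'def
  have e : dg (fun j => ((δ : ℝ) : ℂ) * (k j : ℂ)) * a - a * dg (fun j => ((δ : ℝ) : ℂ) * (k j : ℂ))
      = (((δ : ℝ) : ℂ) * (2 * Complex.I)⁻¹) • (D * (a * D') - D' * (a * D)) := by
    refine op_ext fun i j => ?_
    rw [ent_sub, ent_dg_mul hC, ent_mul_dg hC, ent_smul, ent_sub, hDdef, hD'def, ent_dg_mul hD,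
      ent_dg_mul hD', ent_mul_dg hD, ent_mul_dg hD']
    by_cases ha : ent a i j = 0
    · rw [ha]
      ring
    · have hk := ScalComm_key (h i j ha)
      have hI : Complex.I ≠ 0 := Complex.I_ne_zero
      have e1 : Complex.I ^ (k i - k j) = Complex.I ^ (k i) * Complex.I ^ (-(k j)) := by
        rw [sub_eq_add_neg, zpow_add₀ hI]
      have e2 : Complex.I ^ (-(k i - k j)) = Complex.I ^ (-(k i)) * Complex.I ^ (k j) := by
        rw [← zpow_add₀ hI]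
        congr 1
        ring
      rw [e1, e2] at hk
      have e3 : (((k i - k j : ℤ)) : ℂ) = (k i : ℂ) - (k j : ℂ) := by push_cast; ring
      rw [e3] at hk
      have h2 : (2 * Complex.I) ≠ 0 := mul_ne_zero two_ne_zero hI
      have e4 : (k i : ℂ) - (k j : ℂ) = (2 * Complex.I)⁻¹ *
          (Complex.I ^ (k i) * Complex.I ^ (-(k j)) - Complex.I ^ (-(k i)) * Complex.I ^ (k j)) := by
        rw [← hk, ← mul_assoc, inv_mul_cancel₀ h2, one_mul]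
      calc ((δ : ℝ) : ℂ) * (k i : ℂ) * ent a i j - ent a i j * (((δ : ℝ) : ℂ) * (k j : ℂ))
          = ((δ : ℝ) : ℂ) * ent a i j * ((k i : ℂ) - (k j : ℂ)) := by ring
        _ = _ := by
          rw [e4]
          ring
  rw [e, norm_smul]
  have h1 : ‖((δ : ℝ) : ℂ) * (2 * Complex.I)⁻¹‖ = δ * 2⁻¹ := by
    rw [norm_mul, Complex.norm_real, Real.norm_of_nonneg hδ.le, norm_inv, norm_mul, Complex.norm_I]
    norm_num
  have n1 : ‖D‖ ≤ 1 := norm_dg_le zero_le_one hD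
  have n2 : ‖D'‖ ≤ 1 := norm_dg_le zero_le_one hD'
  have h2 : ‖D * (a * D')‖ ≤ ‖a‖ := by
    calc ‖D * (a * D')‖ ≤ ‖D‖ * (‖a‖ * ‖D'‖) :=
          (norm_mul_le _ _).trans (mul_le_mul_of_nonneg_left (norm_mul_le _ _) (norm_nonneg _))
      _ ≤ 1 * (‖a‖ * 1) := by gcongr
      _ = ‖a‖ := by ring
  have h3 : ‖D' * (a * D)‖ ≤ ‖a‖ := by
    calc ‖D' * (a * D)‖ ≤ ‖D'‖ * (‖a‖ * ‖D‖) :=
          (norm_mul_le _ _).trans (mul_le_mul_of_nonneg_left (norm_mul_le _ _) (norm_nonneg _))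
      _ ≤ 1 * (‖a‖ * 1) := by gcongr
      _ = ‖a‖ := by ring
  have h4 : ‖D * (a * D') - D' * (a * D)‖ ≤ ‖a‖ + ‖a‖ := (norm_sub_le _ _).trans (add_le_add h2 h3)
  rw [h1]
  have h5 := norm_nonneg a
  calc δ * 2⁻¹ * ‖D * (a * D') - D' * (a * D)‖ ≤ δ * 2⁻¹ * (‖a‖ + ‖a‖) := by gcongr
    _ ≤ 2 * δ * ‖a‖ := by nlinarith [mul_nonneg hδ.le h5]

theorem norm_comm_dg {f : J → ℝ} {B : ℝ} (hB : ∀ j, |f j| ≤ B) {δ : ℝ} (hδ : 0 < δ) {a : Op J}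
    (h : ∀ i j, ent a i j ≠ 0 → |f i - f j| ≤ δ) :
    ‖dg (fun j => ((f j : ℝ) : ℂ)) * a - a * dg (fun j => ((f j : ℝ) : ℂ))‖ ≤ 4 * δ * ‖a‖ := by
  have hf : ∀ j, ‖((f j : ℝ) : ℂ)‖ ≤ B := fun j => by
    rw [Complex.norm_real]
    exact hB j
  have hfl : ∀ j, 0 ≤ f j - δ * (⌊f j / δ⌋ : ℝ) ∧ f j - δ * (⌊f j / δ⌋ : ℝ) ≤ δ := fun j => by
    have h1 := Int.floor_le (f j / δ)
    have h2 := Int.lt_floor_add_one (f j / δ)
    have h3 : f j = δ * (f j / δ) := by field_simp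
    constructor
    · rw [sub_nonneg]
      calc δ * (⌊f j / δ⌋ : ℝ) ≤ δ * (f j / δ) := by gcongr
        _ = f j := h3.symm
    · rw [sub_le_iff_le_add]
      calc f j = δ * (f j / δ) := h3
        _ ≤ δ * ((⌊f j / δ⌋ : ℝ) + 1) := by gcongr
        _ = δ + δ * (⌊f j / δ⌋ : ℝ) := by ring
  have hr : ∀ j, ‖(((f j - δ * (⌊f j / δ⌋ : ℝ) : ℝ)) : ℂ)‖ ≤ δ := fun j => by
    rw [Complex.norm_real, Real.norm_of_nonneg (hfl j).1]
    exact (hfl j).2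
  have hg : ∀ j, ‖((δ : ℝ) : ℂ) * ((⌊f j / δ⌋ : ℤ) : ℂ)‖ ≤ B + δ := fun j => by
    have e : ((δ : ℝ) : ℂ) * ((⌊f j / δ⌋ : ℤ) : ℂ) =
        ((f j : ℝ) : ℂ) - (((f j - δ * (⌊f j / δ⌋ : ℝ) : ℝ)) : ℂ) := by
      push_cast
      ring
    rw [e]
    exact (norm_sub_le _ _).trans (add_le_add (hf j) (hr j))
  have e : dg (fun j => ((f j : ℝ) : ℂ)) = dg (fun j => ((δ : ℝ) : ℂ) * ((⌊f j / δ⌋ : ℤ) : ℂ)) +
      dg (fun j => (((f j - δ * (⌊f j / δ⌋ : ℝ) : ℝ)) : ℂ)) := by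
    refine op_ext fun i j => ?_
    rw [ent_add, ent_dg hf, ent_dg hg, ent_dg hr]
    split_ifs
    · push_cast
      ring
    · rw [add_zero]
  have h1 := ScalComm_int (k := fun j => ⌊f j / δ⌋) hδ hg (a := a) (fun i j hij =>
    ScalComm_floor (by
      rw [← sub_div, abs_div, abs_of_pos hδ, div_le_one hδ]
      exact h i j hij))
  have h2 := ScalComm_comm_le hδ.le hr a
  rw [e]
  have e2 : ∀ x y : Op J, (x + y) * a - a * (x + y) = (x * a - a * x) + (y * a - a * y) := by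
    intro x y
    noncomm_ring
  rw [e2]
  refine (norm_add_le _ _).trans ((add_le_add h1 h2).trans (le_of_eq ?_))
  ring

end

end P089.AMC
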