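
import Mathlib
import Vale.Agent.Lib.P089.AM.Core.Ch
import Vale.Agent.Lib.P089.AM.Core.ScalComm
import Vale.Agent.Lib.P089.AM.Core.AO

/-!
# P089 AM/Core: the commutator of `Ch` with an operator of small propagation

`Ch (1 ⊗ a) - (1 ⊗ a) Ch` has the entries `Σ_w [e c w = e'] (√(x i w) - √(x j w)) a i j`: it is the locally
finite sum of `S w = perm (right multiplication by c w) * am [f_w, a]`, `f_w i = √(x i w)`.
`|√s - √t| ≤ √|s - t| ≤ √ε` and `norm_comm_dg` give `‖S w‖ ≤ 4 √ε ‖a‖`.  Locality: if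
`ent a i j ≠ 0` then (as `l1 < 2`) the supports of `x i` and `x j` meet, so `w` in one of the two supports implies
`(v0 i)⁻¹ * w ∈ Es * Es` and `(v0 j)⁻¹ * w ∈ Es * Es`: `N (e, i) = image (v0 i * ·) (Es * Es)`, `m = |Es|²`.
-/

namespace P089.AMC

open scoped Classical

noncomputable section

namespace Cfg

variable {G : Type} [Group G] (C : Cfg G)

omit [Group G] in
theorem Comm_l1_eq (a b : G →₀ ℝ) : l1 a b = ∑ u ∈ a.support ∪ b.support, |a u - b u| := by
  unfold l1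
  rw [Finsupp.sum_of_support_subset (a - b) (s := a.support ∪ b.support) ?_ _ ?_]
  · rfl
  · intro u hu
    rw [Finset.mem_union, Finsupp.mem_support_iff, Finsupp.mem_support_iff]
    rw [Finsupp.mem_support_iff, Finsupp.sub_apply] at hu
    by_contra hcon
    rw [not_or, not_not, not_not] at hcon
    exact hu (by rw [hcon.1, hcon.2, sub_zero])
  · intro i _
    exact abs_zero

theorem Comm_sum_eq (i : C.I) {s : Finset G} (hs : (C.x i).support ⊆ s) :
    ∑ u ∈ s, C.x i u = 1 := by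
  have h := C.x_sum i
  rwa [Finsupp.sum_of_support_subset (C.x i) hs _ (fun _ _ => rfl)] at h

theorem meet_of_l1 {i j : C.I} (h : l1 (C.x i) (C.x j) ≤ 1) :
    ∃ u, C.x i u ≠ 0 ∧ C.x j u ≠ 0 := by
  by_contra hcon
  push Not at hcon
  have h1 : l1 (C.x i) (C.x j) = ∑ u ∈ (C.x i).support ∪ (C.x j).support, (C.x i u + C.x j u) := by
    rw [Comm_l1_eq]
    refine Finset.sum_congr rfl fun u _ => ?_
    by_cases h0 : C.x i u = 0
    · rw [h0, zero_sub, abs_neg, zero_add, abs_of_nonneg (C.x_nonneg j u)]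
    · rw [hcon u h0, sub_zero, add_zero, abs_of_nonneg (C.x_nonneg i u)]
  rw [Finset.sum_add_distrib, C.Comm_sum_eq i Finset.subset_union_left,
    C.Comm_sum_eq j Finset.subset_union_right] at h1
  linarith

theorem Comm_le_one (i : C.I) (w : G) : C.x i w ≤ 1 := by
  by_cases h : C.x i w = 0
  · rw [h]; exact zero_le_one
  · rw [← C.Comm_sum_eq i (Finset.Subset.refl _)]
    exact Finset.single_le_sum (fun u _ => C.x_nonneg i u) (Finsupp.mem_support_iff.2 h)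

theorem Comm_abs_le_l1 (i j : C.I) (w : G) : |C.x i w - C.x j w| ≤ l1 (C.x i) (C.x j) := by
  rw [Comm_l1_eq]
  by_cases h : w ∈ (C.x i).support ∪ (C.x j).support
  · exact Finset.single_le_sum (f := fun u => |C.x i u - C.x j u|) (fun u _ => abs_nonneg _) h
  · rw [Finset.mem_union, Finsupp.mem_support_iff, Finsupp.mem_support_iff, not_or, not_not,
      not_not] at h
    rw [h.1, h.2, sub_zero, abs_zero]
    exact Finset.sum_nonneg fun u _ => abs_nonneg _

theorem Comm_sqrt {s t : ℝ} (hs : 0 ≤ s) (ht : 0 ≤ t) :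
    (Real.sqrt s - Real.sqrt t) ^ 2 ≤ |s - t| := by
  have h1 := Real.sqrt_nonneg s
  have h2 := Real.sqrt_nonneg t
  have h3 : |s - t| = |Real.sqrt s - Real.sqrt t| * (Real.sqrt s + Real.sqrt t) := by
    have h4 : s - t = (Real.sqrt s - Real.sqrt t) * (Real.sqrt s + Real.sqrt t) := by
      have h5 := Real.mul_self_sqrt hs
      have h6 := Real.mul_self_sqrt ht
      linear_combination (-1 : ℝ) * h5 + h6
    rw [h4, abs_mul, abs_of_nonneg (add_nonneg h1 h2)]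
  rw [h3, ← sq_abs, sq]
  refine mul_le_mul_of_nonneg_left ?_ (abs_nonneg _)
  rw [abs_le]
  constructor <;> linarith

theorem abs_sqrt_sub_le {ε : ℝ} {i j : C.I} (h : l1 (C.x i) (C.x j) ≤ ε) (w : G) :
    |Real.sqrt (C.x i w) - Real.sqrt (C.x j w)| ≤ Real.sqrt ε := by
  apply Real.abs_le_sqrt
  exact (Comm_sqrt (C.x_nonneg i w) (C.x_nonneg j w)).trans ((C.Comm_abs_le_l1 i j w).trans h)

/-- commutator with one coordinate function -/
def cw (a : Op C.I) (w : G) : Op C.I :=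
  dg (fun i => ((Real.sqrt (C.x i w) : ℝ) : ℂ)) * a - a * dg (fun i => ((Real.sqrt (C.x i w) : ℝ) : ℂ))

theorem Comm_bd (w : G) (j : C.I) : |Real.sqrt (C.x j w)| ≤ 1 := by
  rw [abs_of_nonneg (Real.sqrt_nonneg _)]
  exact Real.sqrt_le_one.2 (C.Comm_le_one j w)

theorem norm_cw_le {ε : ℝ} (hε : 0 < ε) {a : Op C.I} (ha : C.PropLE ε a) (w : G) :
    ‖C.cw a w‖ ≤ 4 * Real.sqrt ε * ‖a‖ := by
  exact norm_comm_dg (f := fun i => Real.sqrt (C.x i w)) (C.Comm_bd w) (Real.sqrt_pos.2 hε)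
    fun i j hij => C.abs_sqrt_sub_le (ha i j hij) w

theorem Comm_ent_cw (a : Op C.I) (w : G) (i j : C.I) :
    ent (C.cw a w) i j =
      (((Real.sqrt (C.x i w) : ℝ) : ℂ) - ((Real.sqrt (C.x j w) : ℝ) : ℂ)) * ent a i j := by
  have hb : ∀ j : C.I, ‖((Real.sqrt (C.x j w) : ℝ) : ℂ)‖ ≤ 1 := by
    intro j
    rw [Complex.norm_real]
    exact C.Comm_bd w j
  unfold cw
  rw [ent_sub, ent_dg_mul hb, ent_mul_dg hb]
  ring

/-- the local pieces of the commutator -/
def Comm_S (a : Op C.I) (w : G) : Op C.EI := perm (C.eC fun _ => w) * C.am (C.cw a w)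

theorem Comm_ent_am (T : Op C.I) (p q : C.EI) :
    ent (C.am T) p q = if p.1 = q.1 then ent T p.2 q.2 else 0 := ent_amp T p q

theorem Comm_ent_S (a : Op C.I) (w : G) (p q : C.EI) :
    ent (C.Comm_S a w) p q = if p.1 * cc C.z w = q.1 then ent (C.cw a w) p.2 q.2 else 0 := by
  unfold Comm_S
  rw [ent_perm_mul, Comm_ent_am]
  rfl

theorem Comm_ent_Ch_am (T : Op C.I) (p q : C.EI) :
    ent (C.Ch * C.am T) p q = ∑ w ∈ (C.x p.2).support,
      ((Real.sqrt (C.x p.2 w) : ℝ) : ℂ) * (if p.1 * cc C.z w = q.1 then ent T p.2 q.2 else 0) := by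
  have h1 : ent (C.Ch * C.am T) p q = C.Ch (C.am T (dl q)) (C.pt p.1 p.2) := rfl
  rw [h1, Ch_apply]
  refine Finset.sum_congr rfl fun w _ => ?_
  have h2 : (C.am T (dl q)) (C.pt (p.1 * cc C.z w) p.2) =
      ent (C.am T) (C.pt (p.1 * cc C.z w) p.2) q := rfl
  rw [h2, Comm_ent_am]
  rfl

theorem Comm_cc_iff (e e' : Cl C.z) (w : G) : e * cc C.z w = e' ↔ e' * cc C.z w = e := by
  constructor
  · intro h
    rw [← h, mul_assoc, cc_mul_self, mul_one]
  · intro h
    rw [← h, mul_assoc, cc_mul_self, mul_one]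

theorem Comm_ent_am_Ch (T : Op C.I) (p q : C.EI) :
    ent (C.am T * C.Ch) p q = ∑ w ∈ (C.x q.2).support,
      ((Real.sqrt (C.x q.2 w) : ℝ) : ℂ) * (if p.1 * cc C.z w = q.1 then ent T p.2 q.2 else 0) := by
  have h1 : C.am T * C.Ch = star (C.Ch * C.am (star T)) := by
    rw [star_mul, star_Ch]
    have h2 : star (C.am (star T)) = C.am T := by
      have h3 := star_amp (K := Cl C.z) (star T)
      rw [star_star] at h3
      exact h3
    rw [h2]
  rw [h1, ent_star, Comm_ent_Ch_am, star_sum]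
  refine Finset.sum_congr rfl fun w _ => ?_
  rw [star_mul']
  have h4 : star (((Real.sqrt (C.x q.2 w) : ℝ) : ℂ)) = ((Real.sqrt (C.x q.2 w) : ℝ) : ℂ) :=
    Complex.conj_ofReal _
  rw [h4]
  by_cases h : p.1 * cc C.z w = q.1
  · rw [if_pos h, if_pos ((C.Comm_cc_iff _ _ _).1 h), ent_star, star_star]
  · rw [if_neg h, if_neg (fun h' => h ((C.Comm_cc_iff _ _ _).1 h')), star_zero]

/-- the neighbourhood of a point -/
def Comm_N (p : C.EI) : Finset G :=
  (C.Es ×ˢ C.Es).image fun q => C.v0 p.2 * (q.1 * q.2)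

theorem Comm_mem_N {p : C.EI} {u w : G} (h1 : C.x p.2 u ≠ 0) (h2 : u⁻¹ * w ∈ C.Es) :
    w ∈ C.Comm_N p := by
  unfold Comm_N
  refine Finset.mem_image.2 ⟨((C.v0 p.2)⁻¹ * u, u⁻¹ * w), Finset.mem_product.2
    ⟨C.x_supp p.2 _ _ (C.v0_spec p.2) h1, h2⟩, ?_⟩
  show C.v0 p.2 * ((C.v0 p.2)⁻¹ * u * (u⁻¹ * w)) = w
  group

theorem Comm_local {i j : C.I} (h : l1 (C.x i) (C.x j) ≤ 1) {w : G}
    (hw : C.x i w ≠ 0 ∨ C.x j w ≠ 0) (e e' : Cl C.z) :
    w ∈ C.Comm_N (C.pt e i) ∧ w ∈ C.Comm_N (C.pt e' j) := by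
  obtain ⟨u, hu1, hu2⟩ := C.meet_of_l1 h
  have h1 : u⁻¹ * w ∈ C.Es := by
    rcases hw with hw | hw
    · exact C.x_supp i u w hu1 hw
    · exact C.x_supp j u w hu2 hw
  exact ⟨C.Comm_mem_N (p := C.pt e i) hu1 h1, C.Comm_mem_N (p := C.pt e' j) hu2 h1⟩

theorem norm_comm_Ch {ε : ℝ} (hε : 0 < ε) (hε1 : ε ≤ 1) {a : Op C.I} (ha : C.PropLE ε a) :
    ‖C.Ch * C.am a - C.am a * C.Ch‖ ≤ (C.Es.card ^ 2 : ℕ) * (4 * Real.sqrt ε * ‖a‖) := by
  refine norm_le_of_local (C.Ch * C.am a - C.am a * C.Ch) (C.Comm_S a) C.Comm_N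
    (C.Es.card ^ 2) (4 * Real.sqrt ε * ‖a‖) (by positivity) ?_ ?_ ?_ ?_
  · intro p
    unfold Comm_N
    refine Finset.card_image_le.trans ?_
    rw [Finset.card_product, sq]
  · intro w p q h
    rw [Comm_ent_S] at h
    by_cases h1 : p.1 * cc C.z w = q.1
    · rw [if_pos h1, Comm_ent_cw] at h
      have h2 : ent a p.2 q.2 ≠ 0 := right_ne_zero_of_mul h
      have h3 : C.x p.2 w ≠ 0 ∨ C.x q.2 w ≠ 0 := by
        by_contra hcon
        rw [not_or, not_not, not_not] at hcon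
        apply left_ne_zero_of_mul h
        rw [hcon.1, hcon.2, sub_self]
      exact C.Comm_local ((ha p.2 q.2 h2).trans hε1) h3 p.1 q.1
    · rw [if_neg h1] at h
      exact absurd rfl h
  · intro w
    have h1 : ‖C.Comm_S a w‖ ≤ ‖perm (C.eC fun _ => w)‖ * ‖C.am (C.cw a w)‖ := norm_mul_le _ _
    have h2 : ‖C.am (C.cw a w)‖ ≤ ‖C.cw a w‖ := norm_amp_le _
    have h3 := norm_perm_le (C.eC fun _ => w)
    have h4 := C.norm_cw_le hε ha w
    calc ‖C.Comm_S a w‖ ≤ ‖perm (C.eC fun _ => w)‖ * ‖C.am (C.cw a w)‖ := h1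
      _ ≤ 1 * ‖C.am (C.cw a w)‖ := mul_le_mul_of_nonneg_right h3 (norm_nonneg _)
      _ = ‖C.am (C.cw a w)‖ := one_mul _
      _ ≤ _ := h2.trans h4
  · intro p q
    rw [ent_sub, Comm_ent_Ch_am, Comm_ent_am_Ch]
    have hR : ∑ w ∈ C.Comm_N p, ent (C.Comm_S a w) p q =
        ∑ w ∈ C.Comm_N p, ((Real.sqrt (C.x p.2 w) : ℝ) : ℂ) *
            (if p.1 * cc C.z w = q.1 then ent a p.2 q.2 else 0) -
          ∑ w ∈ C.Comm_N p, ((Real.sqrt (C.x q.2 w) : ℝ) : ℂ) *
            (if p.1 * cc C.z w = q.1 then ent a p.2 q.2 else 0) := by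
      rw [← Finset.sum_sub_distrib]
      refine Finset.sum_congr rfl fun w _ => ?_
      rw [Comm_ent_S]
      by_cases h : p.1 * cc C.z w = q.1
      · rw [if_pos h, if_pos h, Comm_ent_cw]
        ring
      · rw [if_neg h, if_neg h]
        ring
    rw [hR]
    by_cases h0 : ent a p.2 q.2 = 0
    · simp only [h0, ite_self, mul_zero, Finset.sum_const_zero]
    · have hl := (ha p.2 q.2 h0).trans hε1
      have e1 : ∀ i : C.I, (∀ w, C.x i w ≠ 0 → w ∈ C.Comm_N p) →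
          ∑ w ∈ (C.x i).support, ((Real.sqrt (C.x i w) : ℝ) : ℂ) *
              (if p.1 * cc C.z w = q.1 then ent a p.2 q.2 else 0) =
            ∑ w ∈ C.Comm_N p, ((Real.sqrt (C.x i w) : ℝ) : ℂ) *
              (if p.1 * cc C.z w = q.1 then ent a p.2 q.2 else 0) := by
        intro i hi
        refine Finset.sum_subset (fun w hw => hi w (Finsupp.mem_support_iff.1 hw)) ?_
        intro w _ hw
        rw [Finsupp.mem_support_iff, not_not] at hw
        rw [hw, Real.sqrt_zero, Complex.ofReal_zero, zero_mul]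
      rw [e1 p.2 fun w hw => (C.Comm_local hl (Or.inl hw) p.1 q.1).1,
        e1 q.2 fun w hw => (C.Comm_local hl (Or.inr hw) p.1 q.1).1]

end Cfg

end

end P089.AMC
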