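
import Mathlib
import Vale.Agent.Lib.P089.AM.Core.Trace

/-!
# P089 AM/Core: close projections have the same trace
-/

namespace P089.AMC

open scoped Classical

noncomputable section

variable {J : Type} {K : Type} [Group K] [MulAction K J]

/-- close projections have the same trace: `w = Q P + (1 - Q) (1 - P)`,
`w - 1 = (2 Q - 1) (P - Q)`, `w P = Q w`. -/
theorem trF_eq_of_close (hfree : ∀ (g : K) (i : J), g • i = i → g = 1) {F : Finset J}
    (hF : DistinctF K F) {P Q : Op J} (hP : Invt K P) (hQ : Invt K Q) (hPF : SuppF K F P)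
    (hQF : SuppF K F Q) (hPP : P * P = P) (hQQ : Q * Q = Q) (hQs : star Q = Q)
    (hd : ‖P - Q‖ < 1) : trF F P = trF F Q := by
  set w : Op J := Q * P + (1 - Q) * (1 - P) with hw
  -- the symmetry `2 Q - 1` has norm at most one
  have hsym : ‖Q + Q - 1‖ ≤ 1 := by
    have h1 : star (Q + Q - 1) * (Q + Q - 1) = 1 := by
      rw [star_sub, star_add, star_one, hQs]
      have e : (Q + Q - 1) * (Q + Q - 1) = Q * Q + Q * Q + (Q * Q + Q * Q) - (Q + Q) - (Q + Q) + 1 := by
        noncomm_ring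
      rw [e, hQQ]
      abel
    have h2 : ‖Q + Q - 1‖ * ‖Q + Q - 1‖ = ‖star (Q + Q - 1) * (Q + Q - 1)‖ :=
      (CStarRing.norm_star_mul_self (x := Q + Q - 1)).symm
    rw [h1] at h2
    have h3 : ‖(1 : Op J)‖ ≤ 1 := ContinuousLinearMap.norm_id_le
    nlinarith [norm_nonneg (Q + Q - 1)]
  have hw1 : w - 1 = (Q + Q - 1) * (P - Q) := by
    have e1 : w - 1 = Q * P + Q * P - Q - P := by
      rw [hw]
      noncomm_ring
    have e2 : (Q + Q - 1) * (P - Q) = Q * P + Q * P - (Q * Q + Q * Q) - P + Q := by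
      noncomm_ring
    rw [e1, e2, hQQ]
    abel
  have hnorm : ‖1 - w‖ < 1 := by
    rw [← norm_neg, neg_sub, hw1]
    calc ‖(Q + Q - 1) * (P - Q)‖ ≤ ‖Q + Q - 1‖ * ‖P - Q‖ := norm_mul_le _ _
      _ ≤ 1 * ‖P - Q‖ := mul_le_mul_of_nonneg_right hsym (norm_nonneg _)
      _ < 1 := by rw [one_mul]; exact hd
  set U : (Op J)ˣ := Units.oneSub (1 - w) hnorm with hU
  have hUw : (U : Op J) = w := by
    rw [hU, Units.val_oneSub]
    abel
  have h1 : w * (↑U⁻¹ : Op J) = 1 := by
    rw [← hUw]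
    exact U.mul_inv
  have h2 : (↑U⁻¹ : Op J) * w = 1 := by
    rw [← hUw]
    exact U.inv_mul
  have hQw : Q * w = Q * P := by
    have e : Q * w = Q * Q * P + (Q - Q * Q) * (1 - P) := by
      rw [hw]
      noncomm_ring
    rw [e, hQQ, sub_self, zero_mul, add_zero]
  have hwP : w * P = Q * P := by
    have e : w * P = Q * (P * P) + (1 - Q) * (P - P * P) := by
      rw [hw]
      noncomm_ring
    rw [e, hPP, sub_self, mul_zero, add_zero]
  have hwI : Invt K w := (hQ.mul hP).add ((Invt.one.sub hQ).mul (Invt.one.sub hP))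
  have hwI' : Invt K (↑U⁻¹ : Op J) := Invt.inv h1 h2 hwI
  have hS : Invt K (Q * w) := hQ.mul hwI
  have hSF : SuppF K F (Q * w) := by
    rw [hQw]
    exact hQF.mul hPF
  have key := trF_comm hfree hF hS hwI' hSF
  have e1 : Q * w * (↑U⁻¹ : Op J) = Q := by
    rw [mul_assoc, h1, mul_one]
  have e2 : (↑U⁻¹ : Op J) * (Q * w) = P := by
    rw [hQw, ← hwP, ← mul_assoc, h2, one_mul]
  rw [e1, e2] at key
  exact key.symm

end

end P089.AMC
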