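
import Mathlib
import Vale.Agent.Lib.P089.AM.Core.Ch2

/-!
# P089 AM/Core: the self-adjoint unitary `W = Ch em + (1 - em)`
-/

namespace P089.AMC

open scoped Classical

noncomputable section

theorem W_norm_aux {J : Type} (T : Op J) : ‖star T * T‖ = ‖T‖ * ‖T‖ :=
  T.norm_adjoint_comp_self

namespace Cfg

variable {G : Type} [Group G] (C : Cfg G)

/-- the self-adjoint unitary -/
def W : Op C.EI := C.Ch * C.em + (1 - C.em)

theorem W_em : C.W * C.em = C.Ch * C.em := by
  unfold W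
  rw [add_mul, sub_mul, one_mul, mul_assoc, C.em_em, sub_self, add_zero]

theorem W_em_left : C.em * C.W = C.Ch * C.em := by
  unfold W
  rw [mul_add, mul_sub, mul_one, ← mul_assoc, C.em_Ch, mul_assoc, C.em_em, sub_self, add_zero]

theorem W_W : C.W * C.W = 1 := by
  have h : C.W = C.Ch * C.em + (1 - C.em) := rfl
  have h1 : C.Ch * C.em * C.W = C.em := by
    rw [mul_assoc, C.W_em_left, C.Ch_Ch_em]
  have h2 : (1 - C.em) * C.W = 1 - C.em := by
    rw [sub_mul, one_mul, C.W_em_left, h, add_sub_cancel_left]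
  calc C.W * C.W = (C.Ch * C.em + (1 - C.em)) * C.W := by rw [← h]
    _ = C.Ch * C.em * C.W + (1 - C.em) * C.W := add_mul _ _ _
    _ = 1 := by rw [h1, h2, add_sub_cancel]

theorem star_W : star C.W = C.W := by
  unfold W
  rw [star_add, star_mul, C.star_em, C.star_Ch, C.em_Ch, star_sub, star_one, C.star_em]

theorem norm_W_le : ‖C.W‖ ≤ 1 := by
  have h1 := W_norm_aux C.W
  rw [C.star_W, C.W_W] at h1
  have h2 : ‖(1 : Op C.EI)‖ ≤ 1 := ContinuousLinearMap.norm_id_le
  have h3 : 0 ≤ ‖C.W‖ := norm_nonneg _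
  nlinarith

theorem norm_em_le : ‖C.em‖ ≤ 1 := by
  have h1 := W_norm_aux C.em
  rw [C.star_em, C.em_em] at h1
  have h3 : 0 ≤ ‖C.em‖ := norm_nonneg _
  by_contra h
  push Not at h
  nlinarith

theorem norm_Zp_le : ‖C.Zp‖ ≤ 1 := norm_perm_le _

theorem em_W : C.em * C.W = C.W * C.em := by
  rw [C.W_em_left, C.W_em]

/-- `W Z = - Z W` on `J = -1` -/
theorem W_Zp_em : C.W * (C.Zp * C.em) = - (C.Zp * (C.W * C.em)) := by
  rw [← C.em_Zp, ← mul_assoc, C.W_em, mul_assoc, C.em_Zp, ← mul_assoc, C.Ch_Zp]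
  rw [← mul_assoc C.RJ, C.RJ_Zp, mul_assoc, mul_assoc, ← mul_assoc C.RJ, C.RJ_Ch, mul_assoc,
    C.RJ_em, mul_neg, mul_neg]

theorem invt_W : Invt C.KK C.W :=
  (C.invt_Ch.mul C.invt_em).add (Invt.one.sub C.invt_em)

theorem ent_W_ne {p q : C.EI} (h : ent C.W p q ≠ 0) : p.2 = q.2 := by
  by_contra hpq
  refine h ?_
  have h1 : ent (C.Ch * C.em) p q = 0 := by
    rw [ent_mul]
    refine (tsum_congr fun k => ?_).trans tsum_zero
    by_cases h2 : ent C.Ch p k = 0
    · rw [h2, zero_mul]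
    · by_cases h3 : ent C.em k q = 0
      · rw [h3, mul_zero]
      · exact absurd ((C.ent_Ch_ne h2).trans (C.ent_em_ne h3)) hpq
  have h2 : ent C.em p q = 0 := by
    by_contra h3
    exact hpq (C.ent_em_ne h3)
  have h3 : ent (1 : Op C.EI) p q = 0 := by
    rw [ent_one, if_neg]
    intro h4
    exact hpq (congrArg Prod.snd h4)
  unfold W
  rw [ent_add, ent_sub, h1, h2, h3, sub_zero, add_zero]

theorem W_comm_am (T : Op C.I) :
    C.W * C.am T - C.am T * C.W = (C.Ch * C.am T - C.am T * C.Ch) * C.em := by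
  unfold W
  rw [add_mul, mul_add, sub_mul, mul_sub, one_mul, mul_one, mul_assoc, C.em_am T, sub_mul,
    mul_assoc, mul_assoc]
  abel

end Cfg

end

end P089.AMC
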