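
import Mathlib
import Vale.Agent.Lib.P089.AM.Core.W
import Vale.Agent.Lib.P089.AM.Core.Close

/-!
# P089 AM/Core: the twisted trace of a projection almost commuting with `W` vanishes

`P₁ = em (1 + Zp)/2 am P`, `P₂ = em (1 - Zp)/2 am P` are projections,
`W P₁ W - P₂ = (1 - Zp)/2 em W (am P W - W am P)` has norm `< 1`, so
`trF P₁ = trF (W P₁ W) = trF P₂` (`trF_comm`, `trF_eq_of_close`), and `trF_em_Zp_am`.
-/

namespace P089.AMC

open scoped Classical

noncomputable section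

namespace Cfg

variable {G : Type} [Group G] (C : Cfg G)

theorem Tw_trF_sub {J : Type} (F : Finset J) (S T : Op J) :
    trF F (S - T) = trF F S - trF F T := by
  unfold trF
  rw [← Finset.sum_sub_distrib]
  exact Finset.sum_congr rfl fun i _ => ent_sub S T i i

/-- the projection `(1 + c Zp) / 2` -/
def Tw_pz (c : ℂ) : Op C.EI := (1 / 2 : ℂ) • (1 + c • C.Zp)

theorem Tw_pz_em (c : ℂ) : C.Tw_pz c * C.em = C.em * C.Tw_pz c := by
  unfold Tw_pz
  rw [smul_mul_assoc, mul_smul_comm, add_mul, mul_add, smul_mul_assoc, mul_smul_comm, em_Zp,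
    one_mul, mul_one]

theorem Tw_pz_am (c : ℂ) {P : Op C.I} (hP : Invt G P) :
    C.Tw_pz c * C.am P = C.am P * C.Tw_pz c := by
  unfold Tw_pz
  rw [smul_mul_assoc, mul_smul_comm, add_mul, mul_add, smul_mul_assoc, mul_smul_comm, C.Zp_am hP,
    one_mul, mul_one]

theorem Tw_pz_pz {c : ℂ} (hc : c * c = 1) : C.Tw_pz c * C.Tw_pz c = C.Tw_pz c := by
  have h : (c • C.Zp) * (c • C.Zp) = 1 := by
    rw [smul_mul_smul_comm, hc, Zp_Zp, one_smul]
  have h2 : (1 + c • C.Zp) * (1 + c • C.Zp) = (2 : ℂ) • (1 + c • C.Zp) := by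
    rw [add_mul, mul_add, mul_add, one_mul, mul_one, one_mul, h, two_smul]
    abel
  unfold Tw_pz
  rw [smul_mul_smul_comm, h2, smul_smul]
  norm_num

theorem Tw_star_pz {c : ℂ} (hc : star c = c) : star (C.Tw_pz c) = C.Tw_pz c := by
  unfold Tw_pz
  rw [star_smul, star_add, star_smul, star_one, star_Zp, hc]
  congr 1
  simp

theorem Tw_norm_pz {c : ℂ} (hc : ‖c‖ ≤ 1) : ‖C.Tw_pz c‖ ≤ 1 := by
  unfold Tw_pz
  have h1 : ‖(1 : Op C.EI)‖ ≤ 1 := ContinuousLinearMap.norm_id_le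
  have h2 : ‖c • C.Zp‖ ≤ 1 := by
    rw [norm_smul]
    calc ‖c‖ * ‖C.Zp‖ ≤ 1 * 1 :=
          mul_le_mul hc C.norm_Zp_le (norm_nonneg _) zero_le_one
      _ = 1 := one_mul 1
  rw [norm_smul]
  have h3 : ‖(1 : Op C.EI) + c • C.Zp‖ ≤ 2 := by
    refine (norm_add_le _ _).trans ?_
    linarith
  have h4 : ‖(1 / 2 : ℂ)‖ = 1 / 2 := by
    norm_num
  rw [h4]
  linarith

theorem Tw_invt_pz (c : ℂ) : Invt C.KK (C.Tw_pz c) :=
  Invt.smul _ (Invt.add Invt.one (Invt.smul _ C.invt_Zp))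

theorem Tw_ent_pz {c : ℂ} (p q : C.EI) (h : ent (C.Tw_pz c) p q ≠ 0) :
    p.2 = q.2 ∨ p.2 = C.z • q.2 := by
  by_contra hcon
  push Not at hcon
  apply h
  have hpq : p ≠ q := by
    rintro rfl
    exact hcon.1 rfl
  unfold Tw_pz
  rw [ent_smul, ent_add, ent_smul, ent_one, if_neg hpq]
  have : ent C.Zp p q = 0 := by
    by_contra h0
    exact hcon.2 (C.ent_Zp_ne h0)
  rw [this]
  simp

/-- `W (1 + Zp)/2 em = (1 - Zp)/2 W em` -/
theorem Tw_W_pz_em : C.W * (C.Tw_pz 1 * C.em) = C.Tw_pz (-1) * (C.W * C.em) := by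
  unfold Tw_pz
  rw [smul_mul_assoc, mul_smul_comm, add_mul, mul_add, one_mul, one_smul, W_Zp_em, smul_mul_assoc,
    add_mul, one_mul, neg_smul, one_smul, neg_mul]

theorem tw_zero_of_comm {F : Finset C.I} (hF : DistinctF G F) {P : Op C.I} (hPs : star P = P)
    (hPP : P * P = P) (hPi : Invt G P) (hPF : SuppF G F P)
    (hc : ‖C.W * C.am P - C.am P * C.W‖ < 1) : ∑ i ∈ F, ent P (C.z • i) i = 0 := by
  have hAA : C.am P * C.am P = C.am P := by
    have h1 : amp (Cl C.z) (P * P) = amp (Cl C.z) P * amp (Cl C.z) P := amp_mul P P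
    rw [hPP] at h1
    exact h1.symm
  have hAs : star (C.am P) = C.am P := by
    have h1 : star (amp (Cl C.z) P) = amp (Cl C.z) (star P) := star_amp P
    rw [hPs] at h1
    exact h1
  have hAi : Invt C.KK (C.am P) := C.invt_am hPi
  have hAF : SuppF C.KK (C.FE F) (C.am P) := C.supp_am hPF
  have hWc : ∀ p q : C.EI, ent C.W p q ≠ 0 → (p.2 = q.2 ∨ p.2 = C.z • q.2) :=
    fun p q h => Or.inl (C.ent_W_ne h)
  have hec : ∀ p q : C.EI, ent C.em p q ≠ 0 → (p.2 = q.2 ∨ p.2 = C.z • q.2) :=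
    fun p q h => Or.inl (C.ent_em_ne h)
  -- the projections
  have hidem : ∀ c : ℂ, c * c = 1 → (C.em * (C.Tw_pz c * C.am P)) * (C.em * (C.Tw_pz c * C.am P)) =
      C.em * (C.Tw_pz c * C.am P) := by
    intro c hcc
    calc (C.em * (C.Tw_pz c * C.am P)) * (C.em * (C.Tw_pz c * C.am P))
        = C.em * (C.Tw_pz c * ((C.am P * C.em) * (C.Tw_pz c * C.am P))) := by
          simp only [mul_assoc]
      _ = C.em * ((C.Tw_pz c * C.em) * ((C.am P * C.Tw_pz c) * C.am P)) := by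
          rw [← C.em_am P]
          simp only [mul_assoc]
      _ = (C.em * C.em) * ((C.Tw_pz c * C.Tw_pz c) * (C.am P * C.am P)) := by
          rw [C.Tw_pz_em c, ← C.Tw_pz_am c hPi]
          simp only [mul_assoc]
      _ = C.em * (C.Tw_pz c * C.am P) := by
          rw [C.em_em, C.Tw_pz_pz hcc, hAA]
  have hsup : ∀ c : ℂ, SuppF C.KK (C.FE F) (C.em * (C.Tw_pz c * C.am P)) := fun c =>
    C.supp_mul (C.supp_mul hAF (fun p q h => C.Tw_ent_pz p q h)) hec
  have hinv : ∀ c : ℂ, Invt C.KK (C.em * (C.Tw_pz c * C.am P)) := fun c =>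
    Invt.mul C.invt_em (Invt.mul (C.Tw_invt_pz c) hAi)
  set P1 := C.em * (C.Tw_pz 1 * C.am P) with hP1
  set P2 := C.em * (C.Tw_pz (-1) * C.am P) with hP2
  have hP11 : P1 * P1 = P1 := hidem 1 (by norm_num)
  have hP22 : P2 * P2 = P2 := hidem (-1) (by norm_num)
  have hP2s : star P2 = P2 := by
    rw [hP2, star_mul, star_mul, hAs, C.Tw_star_pz (by simp), C.star_em, mul_assoc, C.Tw_pz_em,
      ← mul_assoc, ← C.em_am, mul_assoc, ← C.Tw_pz_am _ hPi]
  have hdiff : C.W * (P1 * C.W) - P2 =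
      C.Tw_pz (-1) * (C.em * (C.W * (C.am P * C.W - C.W * C.am P))) := by
    have e1 : C.W * (P1 * C.W) = C.Tw_pz (-1) * (C.em * (C.W * (C.am P * C.W))) := by
      calc C.W * (P1 * C.W) = (C.W * (C.em * C.Tw_pz 1)) * (C.am P * C.W) := by
            rw [hP1]
            simp only [mul_assoc]
        _ = (C.Tw_pz (-1) * (C.W * C.em)) * (C.am P * C.W) := by
            rw [← C.Tw_pz_em, C.Tw_W_pz_em]
        _ = C.Tw_pz (-1) * (C.em * (C.W * (C.am P * C.W))) := by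
            rw [← C.em_W]
            simp only [mul_assoc]
    have e2 : P2 = C.Tw_pz (-1) * (C.em * (C.W * (C.W * C.am P))) := by
      rw [← mul_assoc C.W C.W, C.W_W, one_mul, ← mul_assoc, C.Tw_pz_em, mul_assoc]
    rw [e1, e2, mul_sub, mul_sub, mul_sub]
  have hnorm : ‖C.W * (P1 * C.W) - P2‖ < 1 := by
    rw [hdiff]
    have h1 := C.Tw_norm_pz (c := -1) (by simp)
    have h2 := C.norm_em_le
    have h3 := C.norm_W_le
    have h4 : ‖C.am P * C.W - C.W * C.am P‖ < 1 := by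
      rw [norm_sub_rev]
      exact hc
    have h5 : ‖C.W * (C.am P * C.W - C.W * C.am P)‖ < 1 := by
      calc ‖C.W * (C.am P * C.W - C.W * C.am P)‖ ≤ ‖C.W‖ * ‖C.am P * C.W - C.W * C.am P‖ :=
            norm_mul_le _ _
        _ ≤ 1 * ‖C.am P * C.W - C.W * C.am P‖ :=
            mul_le_mul_of_nonneg_right h3 (norm_nonneg _)
        _ < 1 := by rw [one_mul]; exact h4
    have h6 : ‖C.em * (C.W * (C.am P * C.W - C.W * C.am P))‖ < 1 := by
      calc ‖C.em * (C.W * (C.am P * C.W - C.W * C.am P))‖ ≤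
            ‖C.em‖ * ‖C.W * (C.am P * C.W - C.W * C.am P)‖ := norm_mul_le _ _
        _ ≤ 1 * ‖C.W * (C.am P * C.W - C.W * C.am P)‖ :=
            mul_le_mul_of_nonneg_right h2 (norm_nonneg _)
        _ < 1 := by rw [one_mul]; exact h5
    calc ‖C.Tw_pz (-1) * (C.em * (C.W * (C.am P * C.W - C.W * C.am P)))‖ ≤
          ‖C.Tw_pz (-1)‖ * ‖C.em * (C.W * (C.am P * C.W - C.W * C.am P))‖ := norm_mul_le _ _
      _ ≤ 1 * ‖C.em * (C.W * (C.am P * C.W - C.W * C.am P))‖ :=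
          mul_le_mul_of_nonneg_right h1 (norm_nonneg _)
      _ < 1 := by rw [one_mul]; exact h6
  have hWPW : (C.W * (P1 * C.W)) * (C.W * (P1 * C.W)) = C.W * (P1 * C.W) := by
    rw [mul_assoc C.W (P1 * C.W), mul_assoc P1 C.W, ← mul_assoc C.W C.W, C.W_W, one_mul,
      ← mul_assoc P1 P1, hP11]
  have hWi : Invt C.KK (C.W * (P1 * C.W)) := Invt.mul C.invt_W (Invt.mul (hinv 1) C.invt_W)
  have hWs : SuppF C.KK (C.FE F) (P1 * C.W) := C.supp_mul_right (hsup 1) hWc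
  have hWs' : SuppF C.KK (C.FE F) (C.W * (P1 * C.W)) := C.supp_mul hWs hWc
  have ht1 : trF (C.FE F) (C.W * (P1 * C.W)) = trF (C.FE F) P2 :=
    trF_eq_of_close C.free_EI (C.distinct_FE hF) hWi (hinv (-1)) hWs' (hsup (-1)) hWPW hP22 hP2s
      hnorm
  have ht2 : trF (C.FE F) ((P1 * C.W) * C.W) = trF (C.FE F) (C.W * (P1 * C.W)) :=
    trF_comm C.free_EI (C.distinct_FE hF) (Invt.mul (hinv 1) C.invt_W) C.invt_W hWs
  have ht3 : trF (C.FE F) P1 = trF (C.FE F) P2 := by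
    rw [← ht1, ← ht2, mul_assoc, C.W_W, mul_one]
  have hsub : P1 - P2 = C.em * (C.Zp * C.am P) := by
    rw [hP1, hP2, ← mul_sub, ← sub_mul]
    congr 2
    unfold Tw_pz
    rw [← smul_sub, add_sub_add_left_eq_sub, one_smul, neg_smul, one_smul, sub_neg_eq_add,
      ← two_smul ℂ C.Zp, smul_smul]
    norm_num
  have h0 : trF (C.FE F) (C.em * (C.Zp * C.am P)) = 0 := by
    rw [← hsub, Tw_trF_sub, ht3, sub_self]
  rw [trF_em_Zp_am] at h0
  have h12 : (1 / 2 : ℂ) ≠ 0 := by norm_num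
  exact (mul_eq_zero.1 h0).resolve_left h12

end Cfg

end

end P089.AMC
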