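
import Mathlib
import Vale.Agent.Lib.P089.AM.Core.Tw
import Vale.Agent.Lib.P089.AM.Core.Comm

/-!
# P089 AM/Core: the twisted trace of a projection of small propagation vanishes

`P₁ = em (1 + Zp)/2 am P`, `P₂ = em (1 - Zp)/2 am P` are projections, `W P₁ W` is close to `P₂`
(`‖W am P W - am P‖ ≤ ‖[Ch em, am P]‖ ≤ 2/16 + ‖[Ch, am a]‖ < 1`), so
`trF P₁ = trF (W P₁ W) = trF P₂`, and `trF_em_Zp_am`.
-/

namespace P089.AMC

open scoped Classical

noncomputable section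

namespace Cfg

variable {G : Type} [Group G] (C : Cfg G)

/-- the diagonal projection onto the orbits of `F` -/
def qF (F : Finset C.I) : Op C.I := dg fun i => if InF G F i then 1 else 0

private theorem core_qF_bd (F : Finset C.I) (j : C.I) :
    ‖(if InF G F j then (1 : ℂ) else 0)‖ ≤ 1 := by
  split_ifs
  · rw [norm_one]
  · rw [norm_zero]
    exact zero_le_one

private theorem core_norm_qF (F : Finset C.I) : ‖C.qF F‖ ≤ 1 :=
  norm_dg_le zero_le_one (C.core_qF_bd F)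

private theorem core_norm_qaq (F : Finset C.I) (a : Op C.I) : ‖C.qF F * a * C.qF F‖ ≤ ‖a‖ := by
  have hq := C.core_norm_qF F
  have h1 : ‖C.qF F * a‖ ≤ ‖a‖ :=
    (norm_mul_le _ _).trans (mul_le_of_le_one_left (norm_nonneg _) hq)
  exact (norm_mul_le _ _).trans
    ((mul_le_of_le_one_right (norm_nonneg _) hq).trans h1)

private theorem core_am_add (S T : Op C.I) : C.am (S + T) = C.am S + C.am T := amp_add S T

private theorem core_prop_qaq {F : Finset C.I} {ε : ℝ} {a : Op C.I} (ha : C.PropLE ε a) :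
    C.PropLE ε (C.qF F * a * C.qF F) := by
  intro i j hij
  refine ha i j fun h0 => hij ?_
  unfold qF
  rw [ent_mul_dg (C.core_qF_bd F), ent_dg_mul (C.core_qF_bd F), h0, mul_zero, zero_mul]

theorem norm_comm_P {F : Finset C.I} {ε : ℝ} (hε : 0 < ε) (hε1 : ε ≤ 1) {a P : Op C.I}
    (ha : C.PropLE ε a) (hP : ‖P - C.qF F * a * C.qF F‖ ≤ 1 / 16) :
    ‖C.W * C.am P - C.am P * C.W‖ ≤ 1 / 4 + (C.Es.card ^ 2 : ℕ) * (4 * Real.sqrt ε * ‖a‖) := by
  have hdec : C.am P = C.am (P - C.qF F * a * C.qF F) + C.am (C.qF F * a * C.qF F) := by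
    rw [← C.core_am_add, sub_add_cancel]
  have hW := C.norm_W_le
  have h1 : ‖C.am (P - C.qF F * a * C.qF F)‖ ≤ 1 / 16 := (norm_amp_le _).trans hP
  have h2 : ‖C.W * C.am (P - C.qF F * a * C.qF F)‖ ≤ 1 / 16 :=
    (norm_mul_le _ _).trans ((mul_le_of_le_one_left (norm_nonneg _) hW).trans h1)
  have h3 : ‖C.am (P - C.qF F * a * C.qF F) * C.W‖ ≤ 1 / 16 :=
    (norm_mul_le _ _).trans ((mul_le_of_le_one_right (norm_nonneg _) hW).trans h1)
  have h4 : ‖C.Ch * C.am (C.qF F * a * C.qF F) - C.am (C.qF F * a * C.qF F) * C.Ch‖ ≤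
      (C.Es.card ^ 2 : ℕ) * (4 * Real.sqrt ε * ‖a‖) := by
    refine (C.norm_comm_Ch hε hε1 (C.core_prop_qaq ha)).trans ?_
    refine mul_le_mul_of_nonneg_left ?_ (Nat.cast_nonneg _)
    exact mul_le_mul_of_nonneg_left (C.core_norm_qaq F a) (by positivity)
  have h5 : ‖C.W * C.am (C.qF F * a * C.qF F) - C.am (C.qF F * a * C.qF F) * C.W‖ ≤
      (C.Es.card ^ 2 : ℕ) * (4 * Real.sqrt ε * ‖a‖) := by
    rw [C.W_comm_am]
    exact (norm_mul_le _ _).trans
      ((mul_le_of_le_one_right (norm_nonneg _) C.norm_em_le).trans h4)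
  have h6 : C.W * C.am P - C.am P * C.W =
      (C.W * C.am (P - C.qF F * a * C.qF F) - C.am (P - C.qF F * a * C.qF F) * C.W) +
        (C.W * C.am (C.qF F * a * C.qF F) - C.am (C.qF F * a * C.qF F) * C.W) := by
    rw [hdec, mul_add, add_mul]
    abel
  rw [h6]
  have h7 := norm_add_le
    (C.W * C.am (P - C.qF F * a * C.qF F) - C.am (P - C.qF F * a * C.qF F) * C.W)
    (C.W * C.am (C.qF F * a * C.qF F) - C.am (C.qF F * a * C.qF F) * C.W)
  have h8 := norm_sub_le (C.W * C.am (P - C.qF F * a * C.qF F))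
    (C.am (P - C.qF F * a * C.qF F) * C.W)
  linarith

/-- **core theorem** -/
theorem core (M : ℝ) : ∃ ε : ℝ, 0 < ε ∧ ∀ (F : Finset C.I), DistinctF G F → ∀ a P : Op C.I,
    ‖a‖ ≤ M → C.PropLE ε a → star P = P → P * P = P → Invt G P → SuppF G F P →
      ‖P - C.qF F * a * C.qF F‖ ≤ 1 / 16 → ∑ i ∈ F, ent P (C.z • i) i = 0 := by
  set K : ℝ := (C.Es.card ^ 2 : ℕ) * (4 * |M|) + 1 with hK
  have hK1 : 1 ≤ K := by
    have : 0 ≤ ((C.Es.card ^ 2 : ℕ) : ℝ) * (4 * |M|) := by positivity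
    linarith
  have hK0 : 0 < K := by linarith
  refine ⟨(1 / (2 * K)) ^ 2, by positivity, ?_⟩
  intro F hF a P haM ha hPs hPP hPi hPF hP
  have hε : 0 < (1 / (2 * K)) ^ 2 := by positivity
  have hle : 1 / (2 * K) ≤ 1 := by
    rw [div_le_one (by positivity)]
    linarith
  have hε1 : (1 / (2 * K)) ^ 2 ≤ 1 := pow_le_one₀ (by positivity) hle
  have h1 := C.norm_comm_P hε hε1 ha hP
  rw [Real.sqrt_sq (by positivity)] at h1
  refine C.tw_zero_of_comm hF hPs hPP hPi hPF (lt_of_le_of_lt h1 ?_)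
  have h2 : ‖a‖ ≤ |M| := haM.trans (le_abs_self M)
  have h3 : ((C.Es.card ^ 2 : ℕ) : ℝ) * (4 * (1 / (2 * K)) * ‖a‖) ≤
      ((C.Es.card ^ 2 : ℕ) : ℝ) * (4 * (1 / (2 * K)) * |M|) := by
    refine mul_le_mul_of_nonneg_left ?_ (Nat.cast_nonneg _)
    exact mul_le_mul_of_nonneg_left h2 (by positivity)
  have h4 : ((C.Es.card ^ 2 : ℕ) : ℝ) * (4 * (1 / (2 * K)) * |M|) = (K - 1) * (1 / (2 * K)) := by
    rw [hK]
    ring
  have h5 : (K - 1) * (1 / (2 * K)) ≤ 1 / 2 := by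
    rw [mul_one_div, div_le_iff₀ (by positivity)]
    linarith
  linarith

end Cfg

end

end P089.AMC
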