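
import Mathlib
import Vale.Agent.Lib.P089.AM.Core.Tw
import Vale.Agent.Lib.P089.AM.Core.Close2

/-!
# P089 AM/Core: the twisted trace of an idempotent almost commuting with `W` vanishes
-/

namespace P089.AMC

open scoped Classical

noncomputable section

namespace Cfg

variable {G : Type} [Group G] (C : Cfg G)

/-- the twisted trace of an idempotent almost commuting with `W` vanishes -/
theorem tw_zero_of_comm' {F : Finset C.I} (hF : DistinctF G F) {P : Op C.I}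
    (hPP : P * P = P) (hPi : Invt G P) (hPF : SuppF G F P)
    (hc : (2 * ‖P‖ + 1) * ‖C.W * C.am P - C.am P * C.W‖ < 1) :
    ∑ i ∈ F, ent P (C.z • i) i = 0 := by
  have hAA : C.am P * C.am P = C.am P := by
    have h1 : amp (Cl C.z) (P * P) = amp (Cl C.z) P * amp (Cl C.z) P := amp_mul P P
    rw [hPP] at h1
    exact h1.symm
  have hAi : Invt C.KK (C.am P) := C.invt_am hPi
  have hAF : SuppF C.KK (C.FE F) (C.am P) := C.supp_am hPF
  have hWc : ∀ p q : C.EI, ent C.W p q ≠ 0 → (p.2 = q.2 ∨ p.2 = C.z • q.2) :=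
    fun p q h => Or.inl (C.ent_W_ne h)
  have hec : ∀ p q : C.EI, ent C.em p q ≠ 0 → (p.2 = q.2 ∨ p.2 = C.z • q.2) :=
    fun p q h => Or.inl (C.ent_em_ne h)
  -- the projections
  have hidem : ∀ c : ℂ, c * c = 1 → (C.em * (C.Tw_pz c * C.am P)) * (C.em * (C.Tw_pz c * C.am P)) =
      C.em * (C.Tw_pz c * C.am P) := by
    intro c hcc
    calc (C.em * (C.Tw_pz c * C.am P)) * (C.em * (C.Tw_pz c * C.am P))
        = C.em * (C.Tw_pz c * ((C.am P * C.em) * (C.Tw_pz c * C.am P))) := by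
          simp only [mul_assoc]
      _ = C.em * ((C.Tw_pz c * C.em) * ((C.am P * C.Tw_pz c) * C.am P)) := by
          rw [← C.em_am P]
          simp only [mul_assoc]
      _ = (C.em * C.em) * ((C.Tw_pz c * C.Tw_pz c) * (C.am P * C.am P)) := by
          rw [C.Tw_pz_em c, ← C.Tw_pz_am c hPi]
          simp only [mul_assoc]
      _ = C.em * (C.Tw_pz c * C.am P) := by
          rw [C.em_em, C.Tw_pz_pz hcc, hAA]
  have hsup : ∀ c : ℂ, SuppF C.KK (C.FE F) (C.em * (C.Tw_pz c * C.am P)) := fun c =>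
    C.supp_mul (C.supp_mul hAF (fun p q h => C.Tw_ent_pz p q h)) hec
  have hinv : ∀ c : ℂ, Invt C.KK (C.em * (C.Tw_pz c * C.am P)) := fun c =>
    Invt.mul C.invt_em (Invt.mul (C.Tw_invt_pz c) hAi)
  set P1 := C.em * (C.Tw_pz 1 * C.am P) with hP1
  set P2 := C.em * (C.Tw_pz (-1) * C.am P) with hP2
  have hP11 : P1 * P1 = P1 := hidem 1 (by norm_num)
  have hP22 : P2 * P2 = P2 := hidem (-1) (by norm_num)
  have hdiff : C.W * (P1 * C.W) - P2 =
      C.Tw_pz (-1) * (C.em * (C.W * (C.am P * C.W - C.W * C.am P))) := by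
    have e1 : C.W * (P1 * C.W) = C.Tw_pz (-1) * (C.em * (C.W * (C.am P * C.W))) := by
      calc C.W * (P1 * C.W) = (C.W * (C.em * C.Tw_pz 1)) * (C.am P * C.W) := by
            rw [hP1]
            simp only [mul_assoc]
        _ = (C.Tw_pz (-1) * (C.W * C.em)) * (C.am P * C.W) := by
            rw [← C.Tw_pz_em, C.Tw_W_pz_em]
        _ = C.Tw_pz (-1) * (C.em * (C.W * (C.am P * C.W))) := by
            rw [← C.em_W]
            simp only [mul_assoc]
    have e2 : P2 = C.Tw_pz (-1) * (C.em * (C.W * (C.W * C.am P))) := by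
      rw [← mul_assoc C.W C.W, C.W_W, one_mul, ← mul_assoc, C.Tw_pz_em, mul_assoc]
    rw [e1, e2, mul_sub, mul_sub, mul_sub]
  have hnorm : ‖P2 + P2 - 1‖ * ‖C.W * (P1 * C.W) - P2‖ < 1 := by
    have h1 := C.Tw_norm_pz (c := -1) (by simp)
    have h2 := C.norm_em_le
    have h3 := C.norm_W_le
    have h0 : ‖C.am P‖ ≤ ‖P‖ := norm_amp_le P
    have hD : ‖C.W * (P1 * C.W) - P2‖ ≤ ‖C.W * C.am P - C.am P * C.W‖ := by
      rw [hdiff, norm_sub_rev (C.W * C.am P)]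
      have h5 : ‖C.W * (C.am P * C.W - C.W * C.am P)‖ ≤ ‖C.am P * C.W - C.W * C.am P‖ := by
        calc ‖C.W * (C.am P * C.W - C.W * C.am P)‖ ≤ ‖C.W‖ * ‖C.am P * C.W - C.W * C.am P‖ :=
              norm_mul_le _ _
          _ ≤ 1 * ‖C.am P * C.W - C.W * C.am P‖ :=
              mul_le_mul_of_nonneg_right h3 (norm_nonneg _)
          _ = _ := one_mul _
      have h6 : ‖C.em * (C.W * (C.am P * C.W - C.W * C.am P))‖ ≤
          ‖C.am P * C.W - C.W * C.am P‖ := by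
        calc ‖C.em * (C.W * (C.am P * C.W - C.W * C.am P))‖ ≤
              ‖C.em‖ * ‖C.W * (C.am P * C.W - C.W * C.am P)‖ := norm_mul_le _ _
          _ ≤ 1 * ‖C.W * (C.am P * C.W - C.W * C.am P)‖ :=
              mul_le_mul_of_nonneg_right h2 (norm_nonneg _)
          _ ≤ _ := by rw [one_mul]; exact h5
      calc ‖C.Tw_pz (-1) * (C.em * (C.W * (C.am P * C.W - C.W * C.am P)))‖ ≤
            ‖C.Tw_pz (-1)‖ * ‖C.em * (C.W * (C.am P * C.W - C.W * C.am P))‖ := norm_mul_le _ _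
        _ ≤ 1 * ‖C.em * (C.W * (C.am P * C.W - C.W * C.am P))‖ :=
            mul_le_mul_of_nonneg_right h1 (norm_nonneg _)
        _ ≤ _ := by rw [one_mul]; exact h6
    have hP2n : ‖P2‖ ≤ ‖P‖ := by
      rw [hP2]
      have h7 : ‖C.Tw_pz (-1) * C.am P‖ ≤ ‖P‖ := by
        calc ‖C.Tw_pz (-1) * C.am P‖ ≤ ‖C.Tw_pz (-1)‖ * ‖C.am P‖ := norm_mul_le _ _
          _ ≤ 1 * ‖P‖ := mul_le_mul h1 h0 (norm_nonneg _) zero_le_one
          _ = ‖P‖ := one_mul _
      calc ‖C.em * (C.Tw_pz (-1) * C.am P)‖ ≤ ‖C.em‖ * ‖C.Tw_pz (-1) * C.am P‖ := norm_mul_le _ _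
        _ ≤ 1 * ‖P‖ := mul_le_mul h2 h7 (norm_nonneg _) zero_le_one
        _ = ‖P‖ := one_mul _
    have h1n : ‖(1 : Op C.EI)‖ ≤ 1 := ContinuousLinearMap.norm_id_le
    have hQ : ‖P2 + P2 - 1‖ ≤ 2 * ‖P‖ + 1 := by
      have e1 := norm_sub_le (P2 + P2) (1 : Op C.EI)
      have e2 := norm_add_le P2 P2
      linarith
    calc ‖P2 + P2 - 1‖ * ‖C.W * (P1 * C.W) - P2‖
        ≤ (2 * ‖P‖ + 1) * ‖C.W * C.am P - C.am P * C.W‖ :=
          mul_le_mul hQ hD (norm_nonneg _) (by positivity)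
      _ < 1 := hc
  have hWPW : (C.W * (P1 * C.W)) * (C.W * (P1 * C.W)) = C.W * (P1 * C.W) := by
    rw [mul_assoc C.W (P1 * C.W), mul_assoc P1 C.W, ← mul_assoc C.W C.W, C.W_W, one_mul,
      ← mul_assoc P1 P1, hP11]
  have hWi : Invt C.KK (C.W * (P1 * C.W)) := Invt.mul C.invt_W (Invt.mul (hinv 1) C.invt_W)
  have hWs : SuppF C.KK (C.FE F) (P1 * C.W) := C.supp_mul_right (hsup 1) hWc
  have hWs' : SuppF C.KK (C.FE F) (C.W * (P1 * C.W)) := C.supp_mul hWs hWc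
  have ht1 : trF (C.FE F) (C.W * (P1 * C.W)) = trF (C.FE F) P2 :=
    trF_eq_of_near C.free_EI (C.distinct_FE hF) hWi (hinv (-1)) hWs' (hsup (-1)) hWPW hP22
      hnorm
  have ht2 : trF (C.FE F) ((P1 * C.W) * C.W) = trF (C.FE F) (C.W * (P1 * C.W)) :=
    trF_comm C.free_EI (C.distinct_FE hF) (Invt.mul (hinv 1) C.invt_W) C.invt_W hWs
  have ht3 : trF (C.FE F) P1 = trF (C.FE F) P2 := by
    rw [← ht1, ← ht2, mul_assoc, C.W_W, mul_one]
  have hsub : P1 - P2 = C.em * (C.Zp * C.am P) := by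
    rw [hP1, hP2, ← mul_sub, ← sub_mul]
    congr 2
    unfold Tw_pz
    rw [← smul_sub, add_sub_add_left_eq_sub, one_smul, neg_smul, one_smul, sub_neg_eq_add,
      ← two_smul ℂ C.Zp, smul_smul]
    norm_num
  have h0 : trF (C.FE F) (C.em * (C.Zp * C.am P)) = 0 := by
    rw [← hsub, Tw_trF_sub, ht3, sub_self]
  rw [trF_em_Zp_am] at h0
  have h12 : (1 / 2 : ℂ) ≠ 0 := by norm_num
  exact (mul_eq_zero.1 h0).resolve_left h12

end Cfg

end

end P089.AMC
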