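
import Mathlib
import Vale.Agent.Lib.P089.AM.Core.Core
import Vale.Agent.Lib.P089.AM.Core.Tw2

/-!
# P089 AM/Core: the twisted trace of an idempotent of small propagation vanishes
-/

namespace P089.AMC

open scoped Classical

noncomputable section

namespace Cfg

variable {G : Type} [Group G] (C : Cfg G)

theorem Core2_bdd (F : Finset C.I) : ∀ i : C.I, ‖(if InF G F i then 1 else 0 : ℂ)‖ ≤ 1 := by
  intro i
  split_ifs <;> simp

theorem Core2_bdd' (F : Finset C.I) : ∀ p : C.EI, ‖(if InF G F p.2 then 1 else 0 : ℂ)‖ ≤ 1 := by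
  intro i
  split_ifs <;> simp

theorem Core2_am_qF (F : Finset C.I) :
    C.am (C.qF F) = dg fun p : C.EI => if InF G F p.2 then 1 else 0 := by
  refine op_ext fun p r => ?_
  have h1 : ent (C.am (C.qF F)) p r = if p.1 = r.1 then ent (C.qF F) p.2 r.2 else 0 :=
    ent_amp (C.qF F) p r
  rw [h1, ent_dg (C.Core2_bdd' F)]
  have h2 : ent (C.qF F) p.2 r.2 = if p.2 = r.2 then (if InF G F p.2 then 1 else 0 : ℂ) else 0 :=
    ent_dg (C.Core2_bdd F) p.2 r.2
  rw [h2]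
  by_cases hpr : p = r
  · subst hpr
    simp
  · rw [if_neg hpr]
    by_cases hp1 : p.1 = r.1
    · rw [if_pos hp1]
      have hp2 : p.2 ≠ r.2 := fun h => hpr (Prod.ext hp1 h)
      rw [if_neg hp2]
    · rw [if_neg hp1]

theorem Core2_Ch_qF (F : Finset C.I) : C.Ch * C.am (C.qF F) = C.am (C.qF F) * C.Ch := by
  rw [Core2_am_qF]
  refine op_ext fun p r => ?_
  rw [ent_mul_dg (C.Core2_bdd' F), ent_dg_mul (C.Core2_bdd' F)]
  by_cases h : ent C.Ch p r = 0
  · rw [h, zero_mul, mul_zero]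
  · have h2 : p.2 = r.2 := C.ent_Ch_ne h
    have h3 : (if InF G F p.2 then 1 else 0 : ℂ) = if InF G F r.2 then 1 else 0 := by
      rw [h2]
    rw [h3, mul_comm]

theorem Core2_W_qF (F : Finset C.I) : C.W * C.am (C.qF F) = C.am (C.qF F) * C.W := by
  have h := C.W_comm_am (C.qF F)
  rw [C.Core2_Ch_qF, sub_self, zero_mul] at h
  exact sub_eq_zero.1 h

theorem Core2_norm_qF (F : Finset C.I) : ‖C.am (C.qF F)‖ ≤ 1 := by
  rw [Core2_am_qF]
  exact norm_dg_le zero_le_one (C.Core2_bdd' F)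

theorem norm_comm_P2 {F : Finset C.I} {ε δ : ℝ} (hε : 0 < ε) (hε1 : ε ≤ 1) {a P : Op C.I}
    (ha : C.PropLE ε a) (hP : ‖P - C.qF F * a * C.qF F‖ ≤ δ) :
    ‖C.W * C.am P - C.am P * C.W‖ ≤ 2 * δ + (C.Es.card ^ 2 : ℕ) * (4 * Real.sqrt ε * ‖a‖) := by
  set D : Op C.I := P - C.qF F * a * C.qF F with hD
  have hPD : P = D + C.qF F * a * C.qF F := by
    rw [hD]
    abel
  have hamP : C.am P = C.am D + C.am (C.qF F) * C.am a * C.am (C.qF F) := by
    have e1 : C.am (D + C.qF F * a * C.qF F) = C.am D + C.am (C.qF F * a * C.qF F) :=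
      amp_add _ _
    have e2 : C.am (C.qF F * a * C.qF F) = C.am (C.qF F * a) * C.am (C.qF F) := amp_mul _ _
    have e3 : C.am (C.qF F * a) = C.am (C.qF F) * C.am a := amp_mul _ _
    rw [hPD, e1, e2, e3]
  have hq := C.Core2_W_qF F
  have h3 := C.norm_W_le
  have hcomm : C.W * C.am P - C.am P * C.W = (C.W * C.am D - C.am D * C.W) +
      C.am (C.qF F) * (C.W * C.am a - C.am a * C.W) * C.am (C.qF F) := by
    rw [hamP]
    have e1 : C.W * (C.am (C.qF F) * C.am a * C.am (C.qF F)) =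
        C.am (C.qF F) * (C.W * C.am a) * C.am (C.qF F) := by
      rw [← mul_assoc, ← mul_assoc, hq, mul_assoc (C.am (C.qF F)) C.W]
    have e2 : C.am (C.qF F) * C.am a * C.am (C.qF F) * C.W =
        C.am (C.qF F) * (C.am a * C.W) * C.am (C.qF F) := by
      rw [mul_assoc (C.am (C.qF F) * C.am a), ← hq]
      simp only [mul_assoc]
    rw [mul_add, add_mul, e1, e2, mul_sub, sub_mul]
    abel
  have hDn : ‖C.W * C.am D - C.am D * C.W‖ ≤ 2 * δ := by
    have h4 : ‖C.am D‖ ≤ δ := (norm_amp_le D).trans hP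
    have h5 : ‖C.W * C.am D‖ ≤ δ := by
      calc ‖C.W * C.am D‖ ≤ ‖C.W‖ * ‖C.am D‖ := norm_mul_le _ _
        _ ≤ 1 * ‖C.am D‖ := mul_le_mul_of_nonneg_right h3 (norm_nonneg _)
        _ ≤ δ := by rw [one_mul]; exact h4
    have h6 : ‖C.am D * C.W‖ ≤ δ := by
      calc ‖C.am D * C.W‖ ≤ ‖C.am D‖ * ‖C.W‖ := norm_mul_le _ _
        _ ≤ ‖C.am D‖ * 1 := mul_le_mul_of_nonneg_left h3 (norm_nonneg _)
        _ ≤ δ := by rw [mul_one]; exact h4
    have := norm_sub_le (C.W * C.am D) (C.am D * C.W)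
    linarith
  have han : ‖C.W * C.am a - C.am a * C.W‖ ≤ (C.Es.card ^ 2 : ℕ) * (4 * Real.sqrt ε * ‖a‖) := by
    rw [C.W_comm_am]
    calc ‖(C.Ch * C.am a - C.am a * C.Ch) * C.em‖ ≤ ‖C.Ch * C.am a - C.am a * C.Ch‖ * ‖C.em‖ :=
          norm_mul_le _ _
      _ ≤ ‖C.Ch * C.am a - C.am a * C.Ch‖ * 1 :=
          mul_le_mul_of_nonneg_left C.norm_em_le (norm_nonneg _)
      _ ≤ _ := by rw [mul_one]; exact C.norm_comm_Ch hε hε1 ha
  have hqq : ‖C.am (C.qF F) * (C.W * C.am a - C.am a * C.W) * C.am (C.qF F)‖ ≤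
      (C.Es.card ^ 2 : ℕ) * (4 * Real.sqrt ε * ‖a‖) := by
    have h7 := C.Core2_norm_qF F
    calc ‖C.am (C.qF F) * (C.W * C.am a - C.am a * C.W) * C.am (C.qF F)‖
        ≤ ‖C.am (C.qF F) * (C.W * C.am a - C.am a * C.W)‖ * ‖C.am (C.qF F)‖ := norm_mul_le _ _
      _ ≤ ‖C.am (C.qF F) * (C.W * C.am a - C.am a * C.W)‖ * 1 :=
          mul_le_mul_of_nonneg_left h7 (norm_nonneg _)
      _ ≤ ‖C.am (C.qF F)‖ * ‖C.W * C.am a - C.am a * C.W‖ := by
          rw [mul_one]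
          exact norm_mul_le _ _
      _ ≤ 1 * ‖C.W * C.am a - C.am a * C.W‖ := mul_le_mul_of_nonneg_right h7 (norm_nonneg _)
      _ ≤ _ := by rw [one_mul]; exact han
  rw [hcomm]
  exact (norm_add_le _ _).trans (add_le_add hDn hqq)

/-- **core theorem for idempotents** -/
theorem core2 (M : ℝ) : ∃ δ : ℝ, 0 < δ ∧ ∃ ε : ℝ, 0 < ε ∧ ∀ (F : Finset C.I), DistinctF G F →
    ∀ a P : Op C.I, ‖a‖ ≤ M → C.PropLE ε a → ‖P‖ ≤ M → P * P = P → Invt G P → SuppF G F P →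
      ‖P - C.qF F * a * C.qF F‖ ≤ δ → ∑ i ∈ F, ent P (C.z • i) i = 0 := by
  set N : ℝ := |M| + 1 with hN
  have hN1 : 1 ≤ N := by
    have := abs_nonneg M
    linarith
  have hMN : M ≤ N := by
    have := le_abs_self M
    linarith
  set c : ℝ := (C.Es.card ^ 2 : ℕ) + 1 with hc
  have hc1 : 1 ≤ c := by
    have : (0 : ℝ) ≤ (C.Es.card ^ 2 : ℕ) := Nat.cast_nonneg _
    linarith
  set r : ℝ := 1 / (16 * c * N * (2 * N + 1)) with hr
  have hden : 0 < 16 * c * N * (2 * N + 1) := by positivity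
  have hr0 : 0 < r := by positivity
  have hr1 : r ≤ 1 := by
    rw [hr, div_le_one hden]
    nlinarith [mul_nonneg (by linarith : (0 : ℝ) ≤ c - 1) (by linarith : (0 : ℝ) ≤ N - 1)]
  refine ⟨1 / (8 * (2 * N + 1)), by positivity, r ^ 2, by positivity, ?_⟩
  intro F hF a P haM ha hPM hPP hPi hPF hclose
  have hε1 : r ^ 2 ≤ 1 := by nlinarith
  have h1 := C.norm_comm_P2 (by positivity : 0 < r ^ 2) hε1 ha hclose
  rw [Real.sqrt_sq hr0.le] at h1
  refine C.tw_zero_of_comm' hF hPP hPi hPF ?_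
  have h2 : ((C.Es.card ^ 2 : ℕ) : ℝ) * (4 * r * ‖a‖) ≤ c * (4 * r * N) := by
    refine mul_le_mul (by linarith) ?_ (by positivity) (by positivity)
    exact mul_le_mul_of_nonneg_left (haM.trans hMN) (by positivity)
  have h3 : c * (4 * r * N) * (2 * N + 1) = 1 / 4 := by
    rw [hr]
    field_simp
    norm_num
  have h4 : 2 * (1 / (8 * (2 * N + 1))) * (2 * N + 1) = 1 / 4 := by
    field_simp
    norm_num
  have h5 : ‖C.W * C.am P - C.am P * C.W‖ ≤ 2 * (1 / (8 * (2 * N + 1))) + c * (4 * r * N) :=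
    h1.trans (by linarith)
  have h6 : 2 * ‖P‖ + 1 ≤ 2 * N + 1 := by linarith
  calc (2 * ‖P‖ + 1) * ‖C.W * C.am P - C.am P * C.W‖
      ≤ (2 * N + 1) * (2 * (1 / (8 * (2 * N + 1))) + c * (4 * r * N)) :=
        mul_le_mul h6 h5 (norm_nonneg _) (by positivity)
    _ = 2 * (1 / (8 * (2 * N + 1))) * (2 * N + 1) + c * (4 * r * N) * (2 * N + 1) := by ring
    _ < 1 := by rw [h3, h4]; norm_num

end Cfg

end

end P089.AMC
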